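import Vale.Agent.P204.Tame.Core

/-!
Pointwise algebra for the homotopy one-form of a semipositive current.
-/

namespace Vale.Agent.P204.Tame.ElMir

open scoped Matrix

variable {J u : M}

theorem hmat_symm (J : M) : (hmat J)ᵀ = hmat J := by
  simp [hmat, Matrix.transpose_add, Matrix.transpose_mul]

theorem mul_hmat (hJ : J * J = -1) : J * hmat J = -(hmat J * Jᵀ) := by
  have hJt : Jᵀ * Jᵀ = -1 := by rw [← Matrix.transpose_mul, hJ]; simp
  rw [hmat, Matrix.mul_add, Matrix.add_mul, ← Matrix.mul_assoc, hJ, Matrix.mul_assoc J Jᵀ Jᵀ, hJt]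
  simp only [Matrix.mul_one, Matrix.one_mul, Matrix.mul_neg, Matrix.neg_mul]
  abel

theorem kmat_skew (hJ : J * J = -1) : (kmat J)ᵀ = -kmat J := by
  rw [kmat, Matrix.transpose_mul, hmat_symm, mul_hmat hJ, neg_neg]

theorem skew_entry (h : uᵀ = -u) (i j : Fin 4) : u j i = -u i j := by
  simpa using congrFun (congrFun h i) j

/-- The contraction of the differential of an invariant two-form of unit trace. -/
theorem contraction (hJ : J * J = -1) (hu : uᵀ = -u) (hinv : Jᵀ * u * J = u) (htr : trc J u = 1)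
    (ξ : E) (c : Fin 4) :
    -(∑ i, ∑ l, hmat J i l * ξ l * u i c)
      = (1 / 2) * (∑ l, ξ l * J l c)
        + (1 / 2) * ∑ i, ∑ j, ∑ b, kmat J i j * J b c *
            (ξ i * u j b + ξ j * u b i + ξ b * u i j) := by
  have hK := kmat_skew hJ
  have h1 : ∑ i, ∑ j, ∑ b, kmat J i j * J b c * (ξ i * u j b)
      = (ξ ᵥ* (kmat J * u * J)) c := by
    simp only [Matrix.vecMul, dotProduct, Matrix.mul_apply, Fin.sum_univ_four]
    ring
  have h2 : ∑ i, ∑ j, ∑ b, kmat J i j * J b c * (ξ j * u b i)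
      = ∑ i, ∑ j, ∑ b, kmat J i j * J b c * (ξ i * u j b) := by
    rw [Finset.sum_comm]
    refine Finset.sum_congr rfl fun i _ => Finset.sum_congr rfl fun j _ =>
      Finset.sum_congr rfl fun b _ => ?_
    rw [skew_entry hu j b, skew_entry hK i j]
    ring
  have h3 : ∑ i, ∑ j, ∑ b, kmat J i j * J b c * (ξ b * u i j) = -(∑ l, ξ l * J l c) := by
    have ht : ∑ i, ∑ j, kmat J i j * u i j = -1 := by
      unfold trc at htr; linarith
    calc ∑ i, ∑ j, ∑ b, kmat J i j * J b c * (ξ b * u i j)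
        = (∑ i, ∑ j, kmat J i j * u i j) * ∑ l, ξ l * J l c := by
          rw [Finset.sum_mul]
          refine Finset.sum_congr rfl fun i _ => ?_
          rw [Finset.sum_mul]
          refine Finset.sum_congr rfl fun j _ => ?_
          rw [Finset.mul_sum]
          exact Finset.sum_congr rfl fun b _ => by ring
      _ = _ := by rw [ht]; ring
  have h4 : kmat J * u * J = -(hmat J * u) := by
    rw [kmat, mul_hmat hJ, Matrix.neg_mul, Matrix.neg_mul, Matrix.mul_assoc (hmat J),
      Matrix.mul_assoc (hmat J), hinv]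
  have h5 : (ξ ᵥ* (kmat J * u * J)) c = -(∑ i, ∑ l, hmat J i l * ξ l * u i c) := by
    rw [h4, Matrix.vecMul_neg, Pi.neg_apply]
    simp only [Matrix.vecMul, dotProduct, Matrix.mul_apply, Finset.mul_sum]
    rw [Finset.sum_comm]
    refine congrArg _ (Finset.sum_congr rfl fun i _ => Finset.sum_congr rfl fun l _ => ?_)
    rw [show hmat J i l = hmat J l i from (congrFun (congrFun (hmat_symm J) i) l).symm]
    ring
  simp only [mul_add, Finset.sum_add_distrib]
  rw [h2, h1, h3, h5]
  ring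

/-- A semipositive form at `J` is almost nonnegative on a pair close to `(u, J u)`. -/
theorem val_near (hJ : J * J = -1) {b : M} (hb : Psd J b) (u d : E) :
    -(1 / 4) * val b (-(J *ᵥ d)) d ≤ val b u (J *ᵥ u + d) := by
  set z : E := -(J *ᵥ d) with hz
  have hJz : J *ᵥ z = d := by
    rw [hz, Matrix.mulVec_neg, Matrix.mulVec_mulVec, hJ, Matrix.neg_mulVec, Matrix.one_mulVec,
      neg_neg]
  have hsym : val b z (J *ᵥ u) = val b u (J *ᵥ z) := by
    have h1 : val (Jᵀ * b * J) z (J *ᵥ u) = val b (J *ᵥ z) (J *ᵥ (J *ᵥ u)) := by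
      unfold val
      rw [← Matrix.mulVec_mulVec, ← Matrix.mulVec_mulVec, Matrix.dotProduct_mulVec z Jᵀ,
        Matrix.vecMul_transpose]
    rw [hb.inv] at h1
    rw [h1, Matrix.mulVec_mulVec u J J, hJ, Matrix.neg_mulVec, Matrix.one_mulVec]
    generalize J *ᵥ z = w
    unfold val
    rw [Matrix.mulVec_neg, dotProduct_neg, Matrix.dotProduct_mulVec, ← Matrix.mulVec_transpose,
      hb.skew, Matrix.neg_mulVec, neg_dotProduct, neg_neg, dotProduct_comm]
  have h := hb.nonneg (u + (1 / 2 : ℝ) • z)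
  have e : val b (u + (1 / 2 : ℝ) • z) (J *ᵥ (u + (1 / 2 : ℝ) • z))
      = val b u (J *ᵥ u) + (1 / 2) * (val b u (J *ᵥ z) + val b z (J *ᵥ u))
        + (1 / 4) * val b z (J *ᵥ z) := by
    simp only [val, Matrix.mulVec_add, Matrix.mulVec_smul, add_dotProduct, dotProduct_add,
      smul_dotProduct, dotProduct_smul, smul_eq_mul]
    ring
  have e2 : val b u (J *ᵥ u + d) = val b u (J *ᵥ u) + val b u d := by
    simp [val, Matrix.mulVec_add, dotProduct_add]
  rw [e, hsym, hJz] at h
  rw [e2]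
  linarith

end Vale.Agent.P204.Tame.ElMir
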