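import Vale.Agent.P204.Tame.ElMir.Est

/-!
The homotopy one-form is `dc` of the potential up to a remainder bounded by the truncated
potential; the smoothed current is almost semipositive.
-/

namespace Vale.Agent.P204.Tame.ElMir

open scoped ContDiff Matrix NNReal
open MeasureTheory Metric Set Real

/-- The smoothed potential. -/
noncomputable def upot (J : E → M) (μ : Measure E) (a b : ℝ) (x : E) : ℝ :=
  ∫ z, (1 : ℝ) • pot J x z.2.1 z.1 z.2.2 ∂tyv μ a b

/-- The truncated kernel `exp (-2 t)` on `‖y - x‖ ≤ R exp t`. -/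
noncomputable def capk (R : ℝ) (x : E) (z : ℝ × E × E) : ℝ :=
  {w : ℝ × E × E | ‖w.2.1 - x‖ ≤ R * exp w.1}.indicator (fun w => exp (-2 * w.1)) z

/-- The pointwise conditions on a current. -/
def PtCond (J : E → M) (μ : Measure E) (Θ : E → M) (W : Set E) : Prop :=
  ∀ᵐ y ∂μ, y ∈ W → J y * J y = -1 ∧ Psd (J y) (Θ y) ∧ trc (J y) (Θ y) = 1

/-- Points whose balls at scales up to `exp T` stay in `W`. -/
def Inside (J : E → M) (W : Set E) (T : ℝ) (x : E) : Prop :=
  ∀ t ≤ T, ∀ v z, qd J x z t v ≤ 1 → z ∈ W

variable {J : E → M} {μ : Measure E} {Θ : E → M} {L W : Set E} {B K : ℝ}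

section pointwise

variable (J) (u : M)

/-- The part which integrates to zero in `v`. -/
noncomputable def vterm (x y : E) (t : ℝ) (v : E) (c : Fin 4) : ℝ :=
  -exp (-t) * ∑ i, u i c * ∑ l, J x i l * pd l (fun w => pot J x y t w) v

/-- The part which integrates to zero by closedness. -/
noncomputable def cterm (x y : E) (t : ℝ) (v : E) (c : Fin 4) : ℝ :=
  (1 / 2) * ∑ i, ∑ j, ∑ b,
    (u j b * pd i (fun z => kmat (J z) i j * J z b c * pot J x z t v) y
      + u b i * pd j (fun z => kmat (J z) i j * J z b c * pot J x z t v) y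
      + u i j * pd b (fun z => kmat (J z) i j * J z b c * pot J x z t v) y)

/-- The main part, giving `dc` of the potential. -/
noncomputable def mterm (x y : E) (t : ℝ) (v : E) (c : Fin 4) : ℝ :=
  -(1 / 2) * ∑ l, J x l c * pd l (fun w => pot J w y t v) x

variable {J}

theorem expansion_zero (hJ : ∀ i j, ContDiff ℝ ∞ fun x => J x i j) (x y : E) (t : ℝ) (v : E)
    (c : Fin 4) (h : 1 < qd J x y t v) :
    (∑ i, ∑ j, u i j * hker J i j c (x, t, y, v)) = 0 ∧ vterm J u x y t v c = 0 ∧
      cterm J u x y t v c = 0 ∧ mterm J x y t v c = 0 := by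
  obtain ⟨h1, h2, h3, h4, h5⟩ := kernels_zero hJ h
  have hp : DifferentiableAt ℝ (fun z => pot J x z t v) y :=
    ((contDiff_pot hJ).comp (f := fun z => (x, (z, t, v))) (by fun_prop)).differentiable (by simp) y
  refine ⟨by simp [hker, h1], by simp [vterm, h5], ?_, by simp [mterm, h4]⟩
  have : ∀ r i j b, pd r (fun z => kmat (J z) i j * J z b c * pot J x z t v) y = 0 :=
    fun r i j b => by
      rw [pd_mul ((contDiff_coef hJ i j b c).differentiable (by simp) y) hp, h2, h3]
      simp
  simp [cterm, this]

theorem expansion_bound (hc : Coeff J K) {P : ℝ} (hP : ∀ r, 0 ≤ r → dens r ≤ P) {x y : E} {t : ℝ}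
    {v : E} (h : qd J x y t v ≤ 1) (hB : ∀ i j, |u i j| ≤ B) (hJy : J y * J y = -1)
    (hu : Psd (J y) u) (htr : trc (J y) u = 1) (c : Fin 4) :
    |(∑ i, ∑ j, u i j * hker J i j c (x, t, y, v)) - mterm J x y t v c - vterm J u x y t v c
        - cterm J u x y t v c|
      ≤ (64 * B * P * K * (1 + 4 * K) + 16 * B * P * K * (1 + 4 * K)
          + 2 * P * K * (1 + 4 * K) + 32 * P * K * K + 96 * B * K) * exp (-2 * t) := by
  have hJ := hc.smooth
  have hK : 0 ≤ K := (hc.bJ 0 0).nonneg
  have hB0 : 0 ≤ B := (abs_nonneg _).trans (hB 0 0)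
  have hq := qd_nonneg (J := J) (x := x) (y := y) (t := t) (v := v)
  have hd0 := dens_nonneg (qd J x y t v)
  have hd1 := hP _ hq
  have hP0 : 0 ≤ P := hd0.trans hd1
  have hyx := hc.norm_sub_le h
  have hyi : ∀ i, |y i - x i| ≤ (1 + 4 * K) * exp t := fun i => by
    have h1 := norm_le_pi_norm (y - x) i
    rw [Real.norm_eq_abs, Pi.sub_apply] at h1
    exact h1.trans hyx
  set g := exp (-2 * t) with hg
  have g1 : exp (-4 * t) * exp t * exp t = g := by rw [hg, ← exp_add, ← exp_add]; ring_nf
  have g2 : exp (-3 * t) * exp t = g := by rw [hg, ← exp_add]; ring_nf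
  have hξ : ∀ l, |pd l (fun z => pot J x z t v) y| ≤ P * exp (-3 * t) := fun l => by
    rw [pd_pot_snd hJ, abs_neg, abs_mul, abs_mul, abs_of_pos (exp_pos _), abs_of_nonneg hd0]
    calc exp (-3 * t) * dens (qd J x y t v) * |disp J x y t v l|
        ≤ exp (-3 * t) * P * 1 := by gcongr; exact abs_disp_le h l
      _ = P * exp (-3 * t) := by ring
  have hdiff : ∀ f : E → ℝ, BdLip K f → ∀ l,
      |(f y - f x) * pd l (fun z => pot J x z t v) y| ≤ P * K * (1 + 4 * K) * g := fun f hf l => by
    rw [abs_mul]
    calc |f y - f x| * |pd l (fun z => pot J x z t v) y|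
        ≤ (K * ((1 + 4 * K) * exp t)) * (P * exp (-3 * t)) :=
          mul_le_mul ((hf.2 y x).trans (mul_le_mul_of_nonneg_left hyx hK)) (hξ l) (abs_nonneg _)
            (by positivity)
      _ = P * K * (1 + 4 * K) * g := by rw [← g2]; ring
  -- the five errors
  have hT1 : |∑ i, ∑ j, u i j * (ker J x y t v * (y i - x i) * (exp t * dj J x v j c))|
      ≤ 64 * B * P * K * (1 + 4 * K) * g := by
    refine (abs_sum4_le fun i => abs_sum4_le fun j => ?_).trans_eq
      (show 4 * (4 * (4 * B * P * K * (1 + 4 * K) * g)) = _ by ring)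
    rw [abs_mul, abs_mul, abs_mul, abs_mul, abs_of_pos (exp_pos t), ker, abs_mul,
      abs_of_pos (exp_pos _), abs_of_nonneg hd0]
    calc |u i j| * (exp (-4 * t) * dens (qd J x y t v) * |y i - x i| * (exp t * |dj J x v j c|))
        ≤ B * (exp (-4 * t) * P * ((1 + 4 * K) * exp t) * (exp t * (4 * K))) := by
          gcongr
          · exact hB i j
          · exact hyi i
          · exact hc.abs_dj_le h j c
      _ = 4 * B * P * K * (1 + 4 * K) * g := by rw [← g1]; ring
  have hT2 : |∑ i, ∑ l, (hmat (J y) i l - hmat (J x) i l)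
        * pd l (fun z => pot J x z t v) y * u i c|
      ≤ 16 * B * P * K * (1 + 4 * K) * g := by
    refine (abs_sum4_le fun i => abs_sum4_le fun l => ?_).trans_eq
      (show 4 * (4 * (P * K * (1 + 4 * K) * g * B)) = _ by ring)
    rw [abs_mul]
    exact mul_le_mul (hdiff _ (hc.bH i l) l) (hB i c) (abs_nonneg _) (by positivity)
  have hT3 : |(1 / 2) * ∑ l, (J y l c - J x l c) * pd l (fun z => pot J x z t v) y|
      ≤ 2 * P * K * (1 + 4 * K) * g := by
    rw [abs_mul]
    have h1 : |∑ l, (J y l c - J x l c) * pd l (fun z => pot J x z t v) y| ≤ _ :=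
      abs_sum4_le fun l => hdiff _ (hc.bJ l c) l
    norm_num
    linarith
  have hT4 : |(1 / 2) * ∑ l, J x l c *
        (g * dens (qd J x y t v) * ∑ m, disp J x y t v m * dj J x v m l)|
      ≤ 32 * P * K * K * g := by
    rw [abs_mul]
    have h1 : |∑ l, J x l c * (g * dens (qd J x y t v) * ∑ m, disp J x y t v m * dj J x v m l)|
        ≤ 4 * (K * (g * P * (4 * (1 * (4 * K))))) := by
      refine abs_sum4_le fun l => ?_
      rw [abs_mul, abs_mul, abs_mul, abs_of_nonneg hd0, abs_of_pos (show 0 < g from exp_pos _)]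
      gcongr
      · exact (hc.bJ l c).1 x
      · refine abs_sum4_le fun m => ?_
        rw [abs_mul]
        exact mul_le_mul (abs_disp_le h m) (hc.abs_dj_le h m l) (abs_nonneg _) zero_le_one
    norm_num
    linarith
  have hT5 : |(1 / 2) * ∑ i, ∑ j, ∑ b,
      (u j b * pd i (fun z => kmat (J z) i j * J z b c) y
        + u b i * pd j (fun z => kmat (J z) i j * J z b c) y
        + u i j * pd b (fun z => kmat (J z) i j * J z b c) y) * pot J x y t v|
      ≤ 96 * B * K * g := by
    rw [abs_mul]
    have h1 : |∑ i, ∑ j, ∑ b,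
      (u j b * pd i (fun z => kmat (J z) i j * J z b c) y
        + u b i * pd j (fun z => kmat (J z) i j * J z b c) y
        + u i j * pd b (fun z => kmat (J z) i j * J z b c) y) * pot J x y t v|
        ≤ 4 * (4 * (4 * ((B * K + B * K + B * K) * g))) := by
      refine abs_sum4_le fun i => abs_sum4_le fun j => abs_sum4_le fun b => ?_
      rw [abs_mul]
      refine mul_le_mul ((abs_add_le _ _).trans (add_le_add ((abs_add_le _ _).trans
        (add_le_add ?_ ?_)) ?_)) ?_ (abs_nonneg _) (by positivity)
      iterate 3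
        rw [abs_mul]
        exact mul_le_mul (hB _ _) ((hc.bK i j b c).pd_le _ y) (abs_nonneg _) hB0
      rw [pot, abs_mul, abs_of_pos (exp_pos _), abs_of_nonneg (prof_nonneg _)]
      exact mul_le_of_le_one_right (exp_pos _).le (prof_le_one _)
    norm_num
    linarith
  -- the identity
  have hp : DifferentiableAt ℝ (fun z => pot J x z t v) y :=
    ((contDiff_pot hJ).comp (f := fun z => (x, (z, t, v))) (by fun_prop)).differentiable (by simp) y
  have hP' : ∀ r i j b, pd r (fun z => kmat (J z) i j * J z b c * pot J x z t v) y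
      = pd r (fun z => kmat (J z) i j * J z b c) y * pot J x y t v
        + kmat (J y) i j * J y b c * pd r (fun z => pot J x z t v) y := fun r i j b =>
    pd_mul ((contDiff_coef hJ i j b c).differentiable (by simp) y) hp
  have halg := contraction hJy hu.skew hu.inv htr (fun l => pd l (fun z => pot J x z t v) y) c
  have key : (∑ i, ∑ j, u i j * hker J i j c (x, t, y, v)) - mterm J x y t v c
        - vterm J u x y t v c - cterm J u x y t v c
      = (∑ i, ∑ j, u i j * (ker J x y t v * (y i - x i) * (exp t * dj J x v j c)))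
        + (∑ i, ∑ l, (hmat (J y) i l - hmat (J x) i l)
            * pd l (fun z => pot J x z t v) y * u i c)
        + (1 / 2) * (∑ l, (J y l c - J x l c) * pd l (fun z => pot J x z t v) y)
        + (1 / 2) * (∑ l, J x l c *
            (g * dens (qd J x y t v) * ∑ m, disp J x y t v m * dj J x v m l))
        - (1 / 2) * (∑ i, ∑ j, ∑ b,
            (u j b * pd i (fun z => kmat (J z) i j * J z b c) y
              + u b i * pd j (fun z => kmat (J z) i j * J z b c) y
              + u i j * pd b (fun z => kmat (J z) i j * J z b c) y) * pot J x y t v) := by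
    have e0 : (∑ i, ∑ j, u i j * hker J i j c (x, t, y, v))
        = (∑ i, ∑ j, u i j * (ker J x y t v * (y i - x i) * (exp t * dj J x v j c)))
          + ∑ i, u i c * (ker J x y t v * (y i - x i)) := by
      rw [← Finset.sum_add_distrib]
      refine Finset.sum_congr rfl fun i _ => ?_
      simp only [hker, jm]
      simp only [mul_add, mul_ite, mul_one, mul_zero, Finset.sum_add_distrib,
        Finset.sum_ite_eq', Finset.mem_univ, if_true]
      ring
    have e1 : (∑ i, u i c * (ker J x y t v * (y i - x i)))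
        = -(∑ i, ∑ l, hmat (J x) i l * pd l (fun z => pot J x z t v) y * u i c)
          + vterm J u x y t v c := by
      simp only [vterm, Finset.mul_sum, ← Finset.sum_neg_distrib, ← Finset.sum_add_distrib]
      refine Finset.sum_congr rfl fun i _ => ?_
      rw [ker_mul_sub hJ, Finset.mul_sum, ← Finset.sum_neg_distrib, ← Finset.sum_sub_distrib,
        Finset.mul_sum]
      exact Finset.sum_congr rfl fun l _ => by ring
    have e2 : (∑ i, ∑ l, (hmat (J y) i l - hmat (J x) i l)
          * pd l (fun z => pot J x z t v) y * u i c)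
        = (∑ i, ∑ l, hmat (J y) i l * pd l (fun z => pot J x z t v) y * u i c)
          - ∑ i, ∑ l, hmat (J x) i l * pd l (fun z => pot J x z t v) y * u i c := by
      simp only [sub_mul, Finset.sum_sub_distrib]
    have e3 : mterm J x y t v c
        = (1 / 2) * (∑ l, J x l c * pd l (fun z => pot J x z t v) y)
          - (1 / 2) * ∑ l, J x l c *
            (g * dens (qd J x y t v) * ∑ m, disp J x y t v m * dj J x v m l) := by
      rw [← mul_sub, ← Finset.sum_sub_distrib, mterm, neg_mul, ← mul_neg,
        ← Finset.sum_neg_distrib]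
      refine congrArg _ (Finset.sum_congr rfl fun l _ => ?_)
      rw [pd_pot_fst hJ x y t v]
      ring
    have e4 : cterm J u x y t v c
        = (1 / 2) * (∑ i, ∑ j, ∑ b,
            (u j b * pd i (fun z => kmat (J z) i j * J z b c) y
              + u b i * pd j (fun z => kmat (J z) i j * J z b c) y
              + u i j * pd b (fun z => kmat (J z) i j * J z b c) y) * pot J x y t v)
          + (1 / 2) * ∑ i, ∑ j, ∑ b, kmat (J y) i j * J y b c *
              (pd i (fun z => pot J x z t v) y * u j b + pd j (fun z => pot J x z t v) y * u b i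
                + pd b (fun z => pot J x z t v) y * u i j) := by
      rw [← mul_add, cterm]
      simp only [← Finset.sum_add_distrib, hP']
      refine congrArg _ (Finset.sum_congr rfl fun i _ => Finset.sum_congr rfl fun j _ =>
        Finset.sum_congr rfl fun b _ => by ring)
    have e5 : (∑ l, (J y l c - J x l c) * pd l (fun z => pot J x z t v) y)
        = (∑ l, pd l (fun z => pot J x z t v) y * J y l c)
          - ∑ l, J x l c * pd l (fun z => pot J x z t v) y := by
      rw [← Finset.sum_sub_distrib]
      exact Finset.sum_congr rfl fun l _ => by ring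
    linarith
  rw [key]
  refine ((abs_sub _ _).trans (add_le_add ((abs_add_le _ _).trans (add_le_add ((abs_add_le _ _).trans
    (add_le_add ((abs_add_le _ _).trans (add_le_add hT1 hT2)) hT3)) hT4)) hT5)).trans_eq ?_
  ring

end pointwise

namespace Setup

variable (S : Setup J μ Θ L W B)
include S

omit S in
theorem weight_one (a b : ℝ) :
    AEStronglyMeasurable (fun _ : ℝ × E × E => (1 : ℝ)) (tyv μ a b) ∧
      ∀ᵐ _z ∂tyv μ a b, |(1 : ℝ)| ≤ 1 :=
  ⟨aestronglyMeasurable_const, Filter.Eventually.of_forall fun _ => by simp⟩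

theorem integrable_cont {F : ℝ × E × E → ℝ} (hF : Continuous F) (a b : ℝ) :
    Integrable F (tyv μ a b) := by
  have := S.finite_tyv a b
  simpa using integrable_of_continuous (g := fun _ : ℝ × E × E => (1 : ℝ))
    (isCompact_Icc.prod (S.compact.prod (isCompact_closedBall 0 1))) (S.carried_tyv a b)
    (weight_one (μ := μ) a b).1 (weight_one (μ := μ) a b).2 hF

theorem contDiff_potp : ContDiff ℝ ∞ fun p : E × ℝ × E × E => pot J p.1 p.2.2.1 p.2.1 p.2.2.2 :=
  (contDiff_pot S.smooth).comp (f := fun p : E × ℝ × E × E => (p.1, (p.2.2.1, p.2.1, p.2.2.2)))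
    (by fun_prop)

theorem contDiff_upot (a b : ℝ) : ContDiff ℝ ∞ (upot J μ a b) := by
  have := S.finite_tyv a b
  exact contDiff_param (isCompact_Icc.prod (S.compact.prod (isCompact_closedBall 0 1)))
    (S.carried_tyv a b) (weight_one (μ := μ) a b).1 (weight_one (μ := μ) a b).2 S.contDiff_potp

theorem pd_upot (a b : ℝ) (l : Fin 4) (x : E) :
    pd l (upot J μ a b) x = ∫ z, pd l (fun w => pot J w z.2.1 z.1 z.2.2) x ∂tyv μ a b := by
  have := S.finite_tyv a b
  show fderiv ℝ (fun x => ∫ z, (1 : ℝ) • (fun p : E × ℝ × E × E =>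
    pot J p.1 p.2.2.1 p.2.1 p.2.2.2) (x, z) ∂tyv μ a b) x (e l) = _
  rw [fderiv_param (isCompact_Icc.prod (S.compact.prod (isCompact_closedBall 0 1)))
    (S.carried_tyv a b) (weight_one (μ := μ) a b).1 (weight_one (μ := μ) a b).2 S.contDiff_potp]
  simp only [one_smul]
  rfl

omit S in
theorem measurable_capk (R : ℝ) (x : E) : Measurable (capk R x) :=
  (Continuous.measurable (by fun_prop)).indicator (measurableSet_le (by fun_prop) (by fun_prop))

theorem integrable_capk (R a b : ℝ) (x : E) : Integrable (capk R x) (tyv μ a b) := by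
  refine (S.integrable_cont (F := fun z => exp (-2 * z.1)) (by fun_prop) a b).mono'
    (measurable_capk R x).aestronglyMeasurable (Filter.Eventually.of_forall fun z => ?_)
  rw [Real.norm_eq_abs]
  unfold capk indicator
  split <;> simp [abs_of_pos, exp_pos, le_of_lt]

theorem continuous_pd_pot_par (x : E) (l : Fin 4) :
    Continuous fun z : ℝ × E × E => pd l (fun w => pot J x z.2.1 z.1 w) z.2.2 := by
  simp only [pd_pot_par S.smooth]
  have h1 : Continuous fun z : ℝ × E × E => dens (qd J x z.2.1 z.1 z.2.2) :=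
    contDiff_dens.continuous.comp (((contDiff_qd S.smooth).comp
      (f := fun z : ℝ × E × E => (x, (z.2.1, z.1, z.2.2))) (by fun_prop)).continuous)
  have h2 : ∀ m, Continuous fun z : ℝ × E × E => disp J x z.2.1 z.1 z.2.2 m := fun m => by
    unfold disp; fun_prop
  fun_prop

theorem continuous_pd_pot_snd (x : E) (i j b c r : Fin 4) :
    Continuous fun z : ℝ × E × E =>
      pd r (fun w => kmat (J w) i j * J w b c * pot J x w z.1 z.2.2) z.2.1 := by
  have hJ := S.smooth
  have hp : ∀ z : ℝ × E × E, DifferentiableAt ℝ (fun w => pot J x w z.1 z.2.2) z.2.1 := fun z =>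
    ((contDiff_pot hJ).comp (f := fun w => (x, (w, z.1, z.2.2))) (by fun_prop)).differentiable
      (by simp) z.2.1
  simp only [fun z : ℝ × E × E => pd_mul (i := r)
    ((contDiff_coef hJ i j b c).differentiable (by simp) z.2.1) (hp z), pd_pot_snd hJ]
  have h1 : Continuous fun z : ℝ × E × E => dens (qd J x z.2.1 z.1 z.2.2) :=
    contDiff_dens.continuous.comp (((contDiff_qd hJ).comp
      (f := fun z : ℝ × E × E => (x, (z.2.1, z.1, z.2.2))) (by fun_prop)).continuous)
  have h2 : Continuous fun z : ℝ × E × E => disp J x z.2.1 z.1 z.2.2 r := by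
    unfold disp; fun_prop
  have h3 : Continuous fun z : ℝ × E × E => pot J x z.2.1 z.1 z.2.2 :=
    ((contDiff_pot hJ).comp (f := fun z : ℝ × E × E => (x, (z.2.1, z.1, z.2.2)))
      (by fun_prop)).continuous
  exact (((contDiff_pd (contDiff_coef hJ i j b c) r).continuous.comp (by fun_prop)).mul h3).add
    (((contDiff_coef hJ i j b c).continuous.comp (by fun_prop)).mul (by fun_prop))

theorem continuous_pd_pot_fst (x : E) (l : Fin 4) :
    Continuous fun z : ℝ × E × E => pd l (fun w => pot J w z.2.1 z.1 z.2.2) x := by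
  simp only [pd_pot_fst S.smooth, pd_pot_snd S.smooth]
  have h1 : Continuous fun z : ℝ × E × E => dens (qd J x z.2.1 z.1 z.2.2) :=
    contDiff_dens.continuous.comp (((contDiff_qd S.smooth).comp
      (f := fun z : ℝ × E × E => (x, (z.2.1, z.1, z.2.2))) (by fun_prop)).continuous)
  have h2 : ∀ m, Continuous fun z : ℝ × E × E => disp J x z.2.1 z.1 z.2.2 m := fun m => by
    unfold disp; fun_prop
  have h3 : ∀ m, Continuous fun z : ℝ × E × E => dj J x z.2.2 m l := fun m => by
    unfold dj; fun_prop
  fun_prop

theorem integral_vterm (a b : ℝ) (x : E) (c : Fin 4) :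
    ∫ z, vterm J (Θ z.2.1) x z.2.1 z.1 z.2.2 c ∂tyv μ a b = 0 := by
  have := S.finite
  have := S.finite_yv
  have := S.finite_tyv a b
  have hi : Integrable (fun z => vterm J (Θ z.2.1) x z.2.1 z.1 z.2.2 c) (tyv μ a b) := by
    unfold vterm
    simp only [Finset.mul_sum]
    refine integrable_finsetSum _ fun i _ => integrable_finsetSum _ fun l _ => ?_
    refine (S.integrable_tyv (F := fun z => -exp (-z.1) * (J x i l *
      pd l (fun w => pot J x z.2.1 z.1 w) z.2.2))
      (Continuous.mul (by fun_prop) (continuous_const.mul (S.continuous_pd_pot_par x l))) a b i c).congr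
      (Filter.Eventually.of_forall fun z => ?_)
    ring
  rw [tyv, integral_prod _ hi]
  refine integral_eq_zero_of_ae ?_
  filter_upwards [hi.prod_right_ae] with t ht
  rw [yv] at ht ⊢
  rw [integral_prod _ ht]
  refine integral_eq_zero_of_ae (Filter.Eventually.of_forall fun y => ?_)
  show ∫ v in closedBall 0 1, vterm J (Θ y) x y t v c = 0
  unfold vterm
  have hg : ContDiff ℝ ∞ fun w => pot J x y t w :=
    (contDiff_pot S.smooth).comp (f := fun w => (x, (y, t, w))) (by fun_prop)
  have hsupp : HasCompactSupport fun w => pot J x y t w :=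
    HasCompactSupport.intro (isCompact_closedBall (0 : E) 1) fun w hw => by
      refine (kernels_zero S.smooth ?_).2.1
      by_contra h
      refine hw (mem_closedBall_zero_iff.2 ((pi_norm_le_iff_of_nonneg zero_le_one).2 fun m => ?_))
      simpa using abs_par_le (not_lt.1 h) m
  have h0 : ∀ l, ∫ v in closedBall (0 : E) 1, pd l (fun w => pot J x y t w) v = 0 := fun l => by
    rw [setIntegral_eq_integral_of_forall_compl_eq_zero fun v hv => ?_]
    · have hd := (hg.continuous_fderiv (by simp)).clm_apply
        (continuous_const (y := e l))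
      have := integral_mul_fderiv_eq_neg_fderiv_mul_of_integrable (μ := (volume : Measure E))
        (f := fun _ => (1 : ℝ)) (g := fun w => pot J x y t w) (v := e l) (by simp) (by
          simpa using hd.integrable_of_hasCompactSupport (hsupp.fderiv_apply ℝ (e l)))
        (by simpa using hg.continuous.integrable_of_hasCompactSupport hsupp)
        (fun _ _ => differentiableAt_const _) (fun w _ => hg.differentiable (by simp) w)
      simpa [pd] using this
    · refine (kernels_zero S.smooth ?_).2.2.2.2 l
      by_contra h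
      refine hv (mem_closedBall_zero_iff.2 ((pi_norm_le_iff_of_nonneg zero_le_one).2 fun m => ?_))
      simpa using abs_par_le (not_lt.1 h) m
  have hil : ∀ l, IntegrableOn (fun v => pd l (fun w => pot J x y t w) v) (closedBall (0 : E) 1) :=
    fun l => (contDiff_pd hg l).continuous.continuousOn.integrableOn_compact
      (isCompact_closedBall 0 1)
  rw [integral_const_mul, integral_finsetSum _ fun i _ =>
    ((integrable_finsetSum _ fun l _ => (hil l).const_mul (J x i l)).const_mul _)]
  simp [integral_const_mul, integral_finsetSum _ fun l _ => (hil l).const_mul (J x _ l), h0]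

theorem integral_cterm {T : ℝ} {a b : ℝ} (hb : b ≤ T) {x : E} (hx : Inside J W T x) (c : Fin 4) :
    ∫ z, cterm J (Θ z.2.1) x z.2.1 z.1 z.2.2 c ∂tyv μ a b = 0 := by
  have := S.finite
  have := S.finite_yv
  have := S.finite_tyv a b
  have hJ := S.smooth
  have hi : Integrable (fun z => cterm J (Θ z.2.1) x z.2.1 z.1 z.2.2 c) (tyv μ a b) := by
    unfold cterm
    refine Integrable.const_mul ?_ _
    refine integrable_finsetSum _ fun i _ => integrable_finsetSum _ fun j _ =>
      integrable_finsetSum _ fun b' _ => ?_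
    exact ((S.integrable_tyv (S.continuous_pd_pot_snd x i j b' c i) a b j b').fun_add
      (S.integrable_tyv (S.continuous_pd_pot_snd x i j b' c j) a b b' i)).fun_add
      (S.integrable_tyv (S.continuous_pd_pot_snd x i j b' c b') a b i j)
  rw [tyv, integral_prod _ hi]
  refine integral_eq_zero_of_ae ?_
  filter_upwards [ae_restrict_mem measurableSet_Icc, hi.prod_right_ae] with t ht hti
  rw [yv] at hti ⊢
  rw [integral_prod_symm _ hti]
  refine integral_eq_zero_of_ae (Filter.Eventually.of_forall fun v => ?_)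
  show ∫ y, cterm J (Θ y) x y t v c ∂μ = 0
  have htest : ∀ i j b', IsTest W fun z => kmat (J z) i j * J z b' c * pot J x z t v := by
    intro i j b'
    have hsub : tsupport (fun z => kmat (J z) i j * J z b' c * pot J x z t v)
        ⊆ {z | qd J x z t v ≤ 1} := by
      refine closure_minimal (fun z hz => ?_) (isCompact_qd x t v).isClosed
      by_contra h
      exact hz (by simp [(kernels_zero hJ (not_le.1 h)).2.1])
    exact ⟨(contDiff_coef hJ i j b' c).mul ((contDiff_pot hJ).comp
      (f := fun z => (x, (z, t, v))) (by fun_prop)),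
      (isCompact_qd x t v).of_isClosed_subset (isClosed_tsupport _) hsub,
      hsub.trans fun z hz => hx t (ht.2.trans hb) v z hz⟩
  have hI : ∀ p q r i j b', Integrable (fun y => Θ y p q *
      pd r (fun z => kmat (J z) i j * J z b' c * pot J x z t v) y) μ := fun p q r i j b' =>
    integrable_of_continuous (g := fun y => Θ y p q) S.compact S.carried
      (S.meas p q).aestronglyMeasurable (S.bound.mono fun y h => h p q)
      (contDiff_pd (htest i j b').smooth r).continuous
  unfold cterm
  rw [integral_const_mul, mul_eq_zero]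
  right
  have h3 := fun i j b' => ((hI j b' i i j b').fun_add (hI b' i j i j b')).fun_add (hI i j b' i j b')
  rw [integral_finsetSum _ fun i _ => integrable_finsetSum _ fun j _ =>
    integrable_finsetSum _ fun b' _ => h3 i j b']
  refine Finset.sum_eq_zero fun i _ => ?_
  rw [integral_finsetSum _ fun j _ => integrable_finsetSum _ fun b' _ => h3 i j b']
  refine Finset.sum_eq_zero fun j _ => ?_
  rw [integral_finsetSum _ fun b' _ => h3 i j b']
  exact Finset.sum_eq_zero fun b' _ => S.closed _ (htest i j b') i j b'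

/-- The homotopy one-form is half `dc` of the potential, up to the truncated potential. -/
theorem hform_decomp (hc : Coeff J K) (hp : PtCond J μ Θ W) :
    ∃ C, 0 ≤ C ∧ ∀ (T a b : ℝ), b ≤ T → ∀ x, Inside J W T x → ∀ c,
      |hform J μ Θ a b x c - (1 / 2) * dc J (upot J μ a b) x c|
        ≤ C * ∫ z, capk (1 + 4 * K) x z ∂tyv μ a b := by
  obtain ⟨P, hP⟩ := exists_dens_bound
  have hK : 0 ≤ K := (hc.bJ 0 0).nonneg
  have hP0 : 0 ≤ P := (dens_nonneg 0).trans (hP 0 le_rfl)
  set C₀ : ℝ := 64 * max B 0 * P * K * (1 + 4 * K) + 16 * max B 0 * P * K * (1 + 4 * K)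
          + 2 * P * K * (1 + 4 * K) + 32 * P * K * K + 96 * max B 0 * K with hC₀
  have hC : 0 ≤ C₀ := by positivity
  refine ⟨C₀, hC, fun T a b hb x hx c => ?_⟩
  have := S.finite
  have := S.finite_yv
  have := S.finite_tyv a b
  have hJ := S.smooth
  set main : ℝ × E × E → ℝ := fun z => ∑ i, ∑ j, Θ z.2.1 i j * hker J i j c (x, z) with hmain
  have hmi : ∀ i j, Integrable (fun z => Θ z.2.1 i j * hker J i j c (x, z)) (tyv μ a b) :=
    fun i j => S.integrable_tyv ((contDiff_hker hJ i j c).continuous.comp (by fun_prop)) a b i j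
  have hm : Integrable main (tyv μ a b) :=
    integrable_finsetSum _ fun i _ => integrable_finsetSum _ fun j _ => hmi i j
  have hf : hform J μ Θ a b x c = ∫ z, main z ∂tyv μ a b := by
    rw [hmain, integral_finsetSum _ fun i _ => integrable_finsetSum _ fun j _ => hmi i j]
    exact Finset.sum_congr rfl fun i _ => (integral_finsetSum _ fun j _ => hmi i j).symm
  have hui : ∀ l, Integrable (fun z : ℝ × E × E =>
      J x l c * pd l (fun w => pot J w z.2.1 z.1 z.2.2) x) (tyv μ a b) := fun l =>
    S.integrable_cont (continuous_const.mul (S.continuous_pd_pot_fst x l)) a b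
  have hu : Integrable (fun z => mterm J x z.2.1 z.1 z.2.2 c) (tyv μ a b) :=
    (integrable_finsetSum _ fun l _ => hui l).const_mul _
  have hdc : (1 / 2) * dc J (upot J μ a b) x c
      = ∫ z, mterm J x z.2.1 z.1 z.2.2 c ∂tyv μ a b := by
    unfold mterm
    rw [integral_const_mul, integral_finsetSum _ fun l _ => hui l]
    simp only [integral_const_mul, dc, Pi.neg_apply, Matrix.mulVec, dotProduct,
      Matrix.transpose_apply, S.pd_upot]
    ring
  have hv : Integrable (fun z => vterm J (Θ z.2.1) x z.2.1 z.1 z.2.2 c) (tyv μ a b) := by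
    unfold vterm
    simp only [Finset.mul_sum]
    refine integrable_finsetSum _ fun i _ => integrable_finsetSum _ fun l _ => ?_
    refine (S.integrable_tyv (F := fun z => -exp (-z.1) * (J x i l *
      pd l (fun w => pot J x z.2.1 z.1 w) z.2.2))
      (Continuous.mul (by fun_prop) (continuous_const.mul (S.continuous_pd_pot_par x l))) a b i c).congr
      (Filter.Eventually.of_forall fun z => ?_)
    ring
  have hct : Integrable (fun z => cterm J (Θ z.2.1) x z.2.1 z.1 z.2.2 c) (tyv μ a b) := by
    unfold cterm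
    refine Integrable.const_mul ?_ _
    refine integrable_finsetSum _ fun i _ => integrable_finsetSum _ fun j _ =>
      integrable_finsetSum _ fun b' _ => ?_
    exact ((S.integrable_tyv (S.continuous_pd_pot_snd x i j b' c i) a b j b').fun_add
      (S.integrable_tyv (S.continuous_pd_pot_snd x i j b' c j) a b b' i)).fun_add
      (S.integrable_tyv (S.continuous_pd_pot_snd x i j b' c b') a b i j)
  have e : hform J μ Θ a b x c - (1 / 2) * dc J (upot J μ a b) x c
      = ∫ z, main z - mterm J x z.2.1 z.1 z.2.2 c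
          - vterm J (Θ z.2.1) x z.2.1 z.1 z.2.2 c
          - cterm J (Θ z.2.1) x z.2.1 z.1 z.2.2 c ∂tyv μ a b := by
    rw [integral_sub ((hm.sub' hu).sub' hv) hct, integral_sub (hm.sub' hu) hv, integral_sub hm hu,
      S.integral_vterm, S.integral_cterm hb hx, hf, hdc]
    ring
  rw [e, ← integral_const_mul, ← Real.norm_eq_abs]
  refine norm_integral_le_of_norm_le ((S.integrable_capk _ a b x).const_mul C₀) ?_
  have hpz : ∀ᵐ z ∂tyv μ a b, z.1 ∈ Icc a b ∧ (∀ i j, |Θ z.2.1 i j| ≤ B) ∧
      (z.2.1 ∈ W → J z.2.1 * J z.2.1 = -1 ∧ Psd (J z.2.1) (Θ z.2.1) ∧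
        trc (J z.2.1) (Θ z.2.1) = 1) := by
    filter_upwards [Measure.quasiMeasurePreserving_fst.ae (ae_restrict_mem measurableSet_Icc),
      Measure.quasiMeasurePreserving_snd.ae (Measure.quasiMeasurePreserving_fst.ae S.bound),
      Measure.quasiMeasurePreserving_snd.ae (Measure.quasiMeasurePreserving_fst.ae hp)]
      with z h1 h2 h3 using ⟨h1, h2, h3⟩
  filter_upwards [hpz] with z ⟨hzt, hzB, hzp⟩
  rw [Real.norm_eq_abs]
  by_cases hq : qd J x z.2.1 z.1 z.2.2 ≤ 1
  · obtain ⟨h1, h2, h3⟩ := hzp (hx _ (hzt.2.trans hb) _ _ hq)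
    have hcap : capk (1 + 4 * K) x z = exp (-2 * z.1) :=
      indicator_of_mem (show z ∈ {w : ℝ × E × E | ‖w.2.1 - x‖ ≤ (1 + 4 * K) * exp w.1} from
        hc.norm_sub_le hq) _
    rw [hcap]
    exact expansion_bound (Θ z.2.1) hc hP hq (fun i j => (hzB i j).trans (le_max_left _ _)) h1 h2
      h3 c
  · obtain ⟨h1, h2, h3, h4⟩ := expansion_zero (Θ z.2.1) hJ x z.2.1 z.1 z.2.2 c (not_le.1 hq)
    simp only [hmain, h1, h2, h3, h4, sub_zero, abs_zero]
    exact mul_nonneg hC (indicator_nonneg (fun _ _ => (exp_pos _).le) _)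

end Setup

end Vale.Agent.P204.Tame.ElMir
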