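import Vale.Agent.P204.Tame.DensityMass

/-!
Pointwise inequalities for the pairing of a semipositive form with decomposable forms.
-/

namespace Vale.Agent.P204.Tame.ElMir

open scoped Matrix

/-- The wedge of two one-forms. -/
def wdg (a b : E) : M := Matrix.of fun i j => a i * b j - a j * b i

/-- The quadratic form of a semipositive form on one-forms. -/
noncomputable def qf (J a : M) (ξ : E) : ℝ := wd J a (wdg ξ (-(Jᵀ *ᵥ ξ)))

theorem wdg_apply (a b : E) (i j : Fin 4) : wdg a b i j = a i * b j - a j * b i := rfl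

theorem transpose_sq {J : M} (hJ : J * J = -1) (a : E) : Jᵀ *ᵥ (Jᵀ *ᵥ a) = -a := by
  rw [Matrix.mulVec_mulVec, ← Matrix.transpose_mul, hJ]
  simp [Matrix.neg_mulVec]

theorem conj_wdg (J : M) (a b : E) : Jᵀ * wdg a b * J = wdg (Jᵀ *ᵥ a) (Jᵀ *ᵥ b) := by
  ext i j
  simp [wdg, Matrix.mul_apply, Matrix.mulVec, dotProduct, Fin.sum_univ_four]
  ring

theorem val_wdg (a b v w : E) :
    val (wdg a b) v w = (a ⬝ᵥ v) * (b ⬝ᵥ w) - (b ⬝ᵥ v) * (a ⬝ᵥ w) := by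
  simp [val, wdg, Matrix.mulVec, dotProduct, Fin.sum_univ_four]
  ring

theorem wdg_skew (a b : E) : (wdg a b)ᵀ = -wdg a b := by
  ext i j; simp [wdg]

theorem psd_wdg {J : M} (hJ : J * J = -1) (ξ : E) : Psd J (wdg ξ (-(Jᵀ *ᵥ ξ))) := by
  refine ⟨wdg_skew _ _, ?_, fun v => ?_⟩
  · rw [conj_wdg, Matrix.mulVec_neg, transpose_sq hJ, neg_neg]
    ext i j
    simp [wdg]
    ring
  · have h : ∀ w, (Jᵀ *ᵥ ξ) ⬝ᵥ w = ξ ⬝ᵥ (J *ᵥ w) := fun w => by
      rw [Matrix.mulVec_transpose, ← Matrix.dotProduct_mulVec]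
    rw [val_wdg, neg_dotProduct, neg_dotProduct, h, h, Matrix.mulVec_mulVec, hJ, Matrix.neg_mulVec,
      Matrix.one_mulVec, dotProduct_neg]
    nlinarith [sq_nonneg (ξ ⬝ᵥ v), sq_nonneg (ξ ⬝ᵥ (J *ᵥ v))]

variable {J a : M}

theorem qf_nonneg (hL : LinearFacts) (hJ : J * J = -1) (ha : Psd J a) (ξ : E) :
    0 ≤ qf J a ξ :=
  hL.2.1 J a _ hJ ha (psd_wdg hJ ξ)

/-- The bilinear form of `qf` is symmetric. -/
theorem wd_wdg_symm (hL : LinearFacts) (hJ : J * J = -1) (ha : Psd J a) (ξ ζ : E) :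
    wd J a (wdg ξ (-(Jᵀ *ᵥ ζ))) = wd J a (wdg ζ (-(Jᵀ *ᵥ ξ))) := by
  set u := wdg ξ (-(Jᵀ *ᵥ ζ)) - wdg ζ (-(Jᵀ *ᵥ ξ)) with hu
  have hs : uᵀ = -u := by rw [hu, Matrix.transpose_sub, wdg_skew, wdg_skew]; module
  have hanti : Jᵀ * u * J = -u := by
    rw [hu, Matrix.mul_sub, Matrix.sub_mul, conj_wdg, conj_wdg, Matrix.mulVec_neg,
      Matrix.mulVec_neg, transpose_sq hJ, transpose_sq hJ]
    ext i j
    simp [wdg]
    ring
  have h := hL.1 J a u hJ ha.skew hs ha.inv hanti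
  have e : pfq a u = pfq a (wdg ξ (-(Jᵀ *ᵥ ζ))) - pfq a (wdg ζ (-(Jᵀ *ᵥ ξ))) := by
    simp only [hu, pfq, Matrix.sub_apply]; ring
  rw [e, sub_eq_zero] at h
  simp only [wd, h]

theorem abs_wd_wdg (hL : LinearFacts) (hJ : J * J = -1) (ha : Psd J a) (ξ b : E) {s : ℝ}
    (hs : 0 < s) :
    |wd J a (wdg ξ b)| ≤ s * qf J a ξ + (4 * s)⁻¹ * qf J a (Jᵀ *ᵥ b) := by
  set ζ := Jᵀ *ᵥ b with hζ
  have hb : b = -(Jᵀ *ᵥ ζ) := by rw [hζ, transpose_sq hJ, neg_neg]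
  rw [hb]
  have key : ∀ r : ℝ, qf J a (r • ξ + ζ)
      = r * r * qf J a ξ + r * (2 * wd J a (wdg ξ (-(Jᵀ *ᵥ ζ)))) + qf J a ζ := fun r => by
    rw [two_mul]
    conv_rhs => rw [show wd J a (wdg ξ (-(Jᵀ *ᵥ ζ))) + wd J a (wdg ξ (-(Jᵀ *ᵥ ζ)))
      = wd J a (wdg ξ (-(Jᵀ *ᵥ ζ))) + wd J a (wdg ζ (-(Jᵀ *ᵥ ξ))) by rw [← wd_wdg_symm hL hJ ha ξ ζ]]
    simp only [qf, wd, pfq, wdg_apply, Matrix.mulVec_add, Matrix.mulVec_smul, Pi.add_apply,
      Pi.smul_apply, Pi.neg_apply, smul_eq_mul]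
    ring
  have h1 := qf_nonneg hL hJ ha ((2 * s) • ξ + ζ)
  have h2 := qf_nonneg hL hJ ha ((-(2 * s)) • ξ + ζ)
  rw [key] at h1 h2
  set Q := wd J a (wdg ξ (-(Jᵀ *ᵥ ζ)))
  have e : (4 * s) * (s * qf J a ξ + (4 * s)⁻¹ * qf J a ζ) = 4 * (s * s) * qf J a ξ + qf J a ζ := by
    field_simp
  rw [abs_le]
  constructor <;> nlinarith

theorem abs_wd_wdg_le {B X Y : ℝ} (hB : ∀ i j, |a i j| ≤ B) {ξ b : E} (hX : ∀ i, |ξ i| ≤ X)
    (hY : ∀ i, |b i| ≤ Y) : |wd J a (wdg ξ b)| ≤ 3072 * B * X * Y := by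
  have hB0 : 0 ≤ B := (abs_nonneg _).trans (hB 0 0)
  have hX0 : 0 ≤ X := (abs_nonneg _).trans (hX 0)
  have hu : ∀ i j, |wdg ξ b i j| ≤ 2 * X * Y := fun i j => by
    rw [wdg_apply]
    refine (abs_sub _ _).trans ?_
    rw [abs_mul, abs_mul]
    nlinarith [mul_le_mul (hX i) (hY j) (abs_nonneg _) hX0,
      mul_le_mul (hX j) (hY i) (abs_nonneg _) hX0]
  have hsum : ∀ {u : M} {U : ℝ}, (∀ i j, |u i j| ≤ U) → ∑ i, ∑ j, |u i j| ≤ 16 * U :=
    fun {u U} h => by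
      refine (Finset.sum_le_sum fun i _ => Finset.sum_le_sum fun j _ => h i j).trans_eq ?_
      simp; ring
  rw [wd, abs_mul]
  refine (mul_le_of_le_one_left (abs_nonneg _) (abs_sgnJ_le _)).trans ((abs_pfq_le _ _).trans ?_)
  calc 6 * ((∑ i, ∑ j, |a i j|) * ∑ i, ∑ j, |wdg ξ b i j|)
      ≤ 6 * ((16 * B) * (16 * (2 * X * Y))) := by
        refine mul_le_mul_of_nonneg_left (mul_le_mul (hsum hB) (hsum hu)
          (Finset.sum_nonneg fun i _ => Finset.sum_nonneg fun j _ => abs_nonneg _)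
          (by positivity)) (by norm_num)
    _ = _ := by ring

/-- The bound on `qf (Jᵀ b)`. -/
theorem qf_transpose_le (hJ : J * J = -1) {B K Y : ℝ} (hB : ∀ i j, |a i j| ≤ B)
    (hK : ∀ i j, |J i j| ≤ K) {b : E} (hY : ∀ i, |b i| ≤ Y) :
    qf J a (Jᵀ *ᵥ b) ≤ 12288 * B * K * Y ^ 2 := by
  rw [qf, transpose_sq hJ, neg_neg]
  refine (le_abs_self _).trans ((abs_wd_wdg_le (X := 4 * (K * Y)) hB (fun i => ?_) hY).trans_eq (by ring))
  show |∑ j, Jᵀ i j * b j| ≤ _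
  refine (Finset.abs_sum_le_sum_abs _ _).trans ?_
  refine (Finset.sum_le_sum fun j _ => ?_).trans_eq (show ∑ _j : Fin 4, K * Y = _ by simp)
  rw [abs_mul, Matrix.transpose_apply]
  exact mul_le_mul (hK j i) (hY j) (abs_nonneg _) ((abs_nonneg _).trans (hK 0 0))

/-- A two-form which is almost semipositive on `(v, J v)` pairs almost nonnegatively. -/
theorem wd_ge (hL : LinearFacts) (hJ : J * J = -1) (ha : Psd J a) {u : M} (hu : uᵀ = -u) {t : ℝ}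
    (ht : 0 ≤ t) (h : ∀ v, -t * (v ⬝ᵥ v) ≤ val u v (J *ᵥ v)) :
    -t * ∑ l, qf J a (e l) ≤ wd J a u := by
  set P : M := ∑ l, wdg (e l) (-(Jᵀ *ᵥ e l)) with hP
  have hPs : Pᵀ = -P := by
    rw [hP, Matrix.transpose_sum, ← Finset.sum_neg_distrib]
    exact Finset.sum_congr rfl fun l _ => wdg_skew _ _
  have hs : (u + t • P)ᵀ = -(u + t • P) := by
    rw [Matrix.transpose_add, Matrix.transpose_smul, hu, hPs]; module
  have hv : ∀ v, (0 : ℝ) * (v ⬝ᵥ (gmat J *ᵥ v)) ≤ val (u + t • P) v (J *ᵥ v) := fun v => by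
    have hsum : val P v (J *ᵥ v) = ∑ l, val (wdg (e l) (-(Jᵀ *ᵥ e l))) v (J *ᵥ v) := by
      simp only [val, hP, Matrix.sum_mulVec, dotProduct_sum]
    have hPv : v ⬝ᵥ v ≤ val P v (J *ᵥ v) := by
      rw [hsum]
      refine Finset.sum_le_sum fun l _ => ?_
      have h : ∀ w, (Jᵀ *ᵥ e l) ⬝ᵥ w = e l ⬝ᵥ (J *ᵥ w) := fun w => by
        rw [Matrix.mulVec_transpose, ← Matrix.dotProduct_mulVec]
      rw [val_wdg, neg_dotProduct, neg_dotProduct, h, h, Matrix.mulVec_mulVec, hJ,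
        Matrix.neg_mulVec, Matrix.one_mulVec, dotProduct_neg]
      simp only [e, single_dotProduct, one_mul]
      nlinarith [mul_self_nonneg ((J *ᵥ v) l)]
    have e2 : val (u + t • P) v (J *ᵥ v) = val u v (J *ᵥ v) + t * val P v (J *ᵥ v) := by
      simp only [val, Matrix.add_mulVec, Matrix.smul_mulVec, dotProduct_add, dotProduct_smul,
        smul_eq_mul]
    rw [e2]
    nlinarith [h v]
  have h0 := wd_lower hL hJ ha hs (m := 0) hv
  have e3 : wd J a (u + t • P) = wd J a u + t * ∑ l, qf J a (e l) := by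
    simp only [qf, wd, pfq, hP, Matrix.add_apply, Matrix.smul_apply,
      smul_eq_mul, Fin.sum_univ_four]
    ring
  rw [e3, zero_mul] at h0
  linarith

/-- The cyclic contraction is bounded by the pairings with decomposable forms. -/
theorem abs_cyclic_le {u : M} (hu : ∀ i j, u j i = -u i j) (ξ : E) {m : ℝ}
    (hm : ∀ l, |pfq u (wdg ξ (e l))| ≤ m) (i j k : Fin 4) :
    |u j k * ξ i + u k i * ξ j + u i j * ξ k| ≤ m := by
  have h0 : ∀ i, u i i = 0 := fun i => by have := hu i i; linarith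
  have p0 := abs_le.1 (hm 0); have p1 := abs_le.1 (hm 1)
  have p2 := abs_le.1 (hm 2); have p3 := abs_le.1 (hm 3)
  simp [pfq, wdg, e] at p0 p1 p2 p3
  rw [abs_le]
  fin_cases i <;> fin_cases j <;> fin_cases k <;> simp [h0, hu 0 1, hu 0 2, hu 0 3, hu 1 2, hu 1 3, hu 2 3] <;>
    (try constructor) <;> linarith

end Vale.Agent.P204.Tame.ElMir
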