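import Vale.Agent.P204.Tame.ElMir.Decomp
import Vale.Agent.P204.Tame.Measure

/-!
The smoothed potential tends to infinity exactly at the poles and dominates the truncated kernel.
-/

namespace Vale.Agent.P204.Tame.ElMir

open scoped ContDiff Matrix NNReal ENNReal Topology
open MeasureTheory Metric Set Real Filter

/-- The function of `t` integrated in `psi`. -/
noncomputable def psiFun (r d : ℝ) : ℝ → ℝ :=
  {t : ℝ | d ≤ r * exp t}.indicator fun t => exp (-2 * t)

/-- The integral of `exp (-2 t)` over the scales seeing the distance `d`. -/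
noncomputable def psi (r a b d : ℝ) : ℝ := ∫ t in Icc a b, psiFun r d t

theorem psiFun_nonneg (r d t : ℝ) : 0 ≤ psiFun r d t :=
  indicator_nonneg (fun _ _ => (exp_pos _).le) t

theorem psiFun_le (r d t : ℝ) : psiFun r d t ≤ exp (-2 * t) :=
  indicator_le_self' (fun _ _ => (exp_pos _).le) t

theorem measurable_psiFun (r d : ℝ) : Measurable (psiFun r d) :=
  (Continuous.measurable (by fun_prop)).indicator
    (measurableSet_le measurable_const (by fun_prop))

theorem integrableOn_psiFun (r d a b : ℝ) : IntegrableOn (psiFun r d) (Icc a b) := by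
  refine ((Continuous.integrableOn_Icc (f := fun t => exp (-2 * t)) (by fun_prop))).mono'
    (measurable_psiFun r d).aestronglyMeasurable (Eventually.of_forall fun t => ?_)
  rw [Real.norm_eq_abs, abs_of_nonneg (psiFun_nonneg r d t)]
  exact psiFun_le r d t

theorem intervalIntegrable_psiFun (r d a b : ℝ) : IntervalIntegrable (psiFun r d) volume a b :=
  (intervalIntegrable_iff').2 (integrableOn_psiFun r d _ _)

theorem psi_nonneg (r a b d : ℝ) : 0 ≤ psi r a b d := integral_nonneg fun t => psiFun_nonneg r d t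

theorem psi_eq_interval {a b : ℝ} (hab : a ≤ b) (r d : ℝ) :
    psi r a b d = ∫ t in a..b, psiFun r d t := by
  rw [psi, integral_Icc_eq_integral_Ioc, intervalIntegral.integral_of_le hab]

theorem psi_mono_interval {a a' b : ℝ} (h : a' ≤ a) (r d : ℝ) : psi r a b d ≤ psi r a' b d :=
  setIntegral_mono_set (integrableOn_psiFun r d a' b)
    (Eventually.of_forall fun t => psiFun_nonneg r d t) (HasSubset.Subset.eventuallyLE (Icc_subset_Icc_left h))

/-- Enlarging the radius costs a constant factor. -/
theorem psi_scale {r R : ℝ} (hr : 0 < r) (hrR : r ≤ R) {a b : ℝ} (hab : a ≤ b) (d : ℝ) :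
    psi R a b d ≤ exp (2 * log (R / r)) * (psi r a b d + log (R / r) * exp (-2 * b)) := by
  set h := log (R / r) with hh
  have hh0 : 0 ≤ h := log_nonneg ((one_le_div hr).2 hrR)
  have hR : r * exp h = R := by
    rw [hh, exp_log (div_pos (hr.trans_le hrR) hr), mul_div_cancel₀ _ hr.ne']
  have hpt : ∀ t, psiFun R d t = exp (2 * h) * psiFun r d (t + h) := by
    intro t
    have e : r * exp (t + h) = R * exp t := by rw [exp_add, ← hR]; ring
    unfold psiFun
    by_cases hd : d ≤ R * exp t
    · rw [indicator_of_mem (show t ∈ {t | d ≤ R * exp t} from hd),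
        indicator_of_mem (show t + h ∈ {t | d ≤ r * exp t} by rw [Set.mem_ofPred_eq, e]; exact hd),
        ← exp_add]
      ring_nf
    · rw [indicator_of_notMem (show t ∉ {t | d ≤ R * exp t} from hd),
        indicator_of_notMem (show t + h ∉ {t | d ≤ r * exp t} by rw [Set.mem_ofPred_eq, e]; exact hd),
        mul_zero]
  rw [psi_eq_interval hab, psi_eq_interval hab]
  simp only [hpt]
  rw [intervalIntegral.integral_const_mul, intervalIntegral.integral_comp_add_right]
  refine mul_le_mul_of_nonneg_left ?_ (exp_pos _).le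
  have h1 : ∫ t in (a + h)..(b + h), psiFun r d t ≤ ∫ t in a..(b + h), psiFun r d t :=
    intervalIntegral.integral_mono_interval (by linarith) (by linarith) le_rfl
      (Eventually.of_forall fun t => psiFun_nonneg r d t) (intervalIntegrable_psiFun r d _ _)
  have h2 : ∫ t in b..(b + h), psiFun r d t ≤ h * exp (-2 * b) := by
    refine (intervalIntegral.integral_mono_on (g := fun _ => exp (-2 * b)) (by linarith)
      (intervalIntegrable_psiFun r d _ _) intervalIntegrable_const fun t ht => ?_).trans_eq ?_
    · exact (psiFun_le r d t).trans (exp_le_exp.2 (by linarith [ht.1]))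
    · simp
  rw [← intervalIntegral.integral_add_adjacent_intervals (intervalIntegrable_psiFun r d a b)
    (intervalIntegrable_psiFun r d b (b + h))] at h1
  linarith

theorem integral_exp_neg_two {a b : ℝ} :
    ∫ t in a..b, exp (-2 * t) = (exp (-2 * a) - exp (-2 * b)) / 2 := by
  rw [intervalIntegral.integral_eq_sub_of_hasDerivAt (f := fun t => -exp (-2 * t) / 2)
    (fun t _ => by
      simpa using ((((hasDerivAt_id t).const_mul (-2 : ℝ)).exp).neg).div_const 2)
    (Continuous.intervalIntegrable (by fun_prop) _ _)]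
  ring

theorem psi_le_pole {r : ℝ} (hr : 0 < r) {a b : ℝ} {d : ℝ} (hd : 0 < d) :
    psi r a b d ≤ r ^ 2 / 2 * (d ^ 2)⁻¹ := by
  have hm : exp (-2 * log (d / r)) = r ^ 2 * (d ^ 2)⁻¹ := by
    rw [show -2 * log (d / r) = -(log (d / r) + log (d / r)) by ring, exp_neg, exp_add,
      exp_log (div_pos hd hr)]
    field_simp
  calc psi r a b d = ∫ t in Icc a b ∩ {t | d ≤ r * exp t}, exp (-2 * t) := by
        rw [psi, psiFun, setIntegral_indicator (measurableSet_le measurable_const (by fun_prop))]
    _ ≤ ∫ t in Ioi (log (d / r) - 0), exp (-2 * t) := by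
        rw [sub_zero, ← integral_Ici_eq_integral_Ioi]
        refine setIntegral_mono_set ?_ (Eventually.of_forall fun t => (exp_pos _).le)
          (HasSubset.Subset.eventuallyLE fun t ht => ?_)
        · rw [integrableOn_Ici_iff_integrableOn_Ioi]
          exact integrableOn_exp_mul_Ioi (by norm_num) _
        · have h1 : d / r ≤ exp t := by
            rw [div_le_iff₀ hr, mul_comm]; exact ht.2
          calc log (d / r) ≤ log (exp t) := log_le_log (div_pos hd hr) h1
            _ = t := log_exp t
    _ = _ := by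
        rw [sub_zero, integral_exp_mul_Ioi (by norm_num) _, hm]
        ring

variable {J : E → M} {μ : Measure E} {Θ : E → M} {L W : Set E} {B K : ℝ}

/-- The radius below which the potential kernel is bounded below. -/
noncomputable def rad (K : ℝ) : ℝ := (4 * (2 + 4 * K))⁻¹

theorem pot_lower (hc : Coeff J K) (x : E) (z : ℝ × E × E) :
    prof (1 / 2) * ({v : E | ‖v‖ ≤ rad K}.indicator (fun _ => (1 : ℝ)) z.2.2
        * psiFun (rad K) ‖z.2.1 - x‖ z.1)
      ≤ pot J x z.2.1 z.1 z.2.2 := by
  have h0 : 0 ≤ pot J x z.2.1 z.1 z.2.2 := mul_nonneg (exp_pos _).le (prof_nonneg _)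
  by_cases hv : ‖z.2.2‖ ≤ rad K
  swap
  · rw [indicator_of_notMem (show z.2.2 ∉ {v : E | ‖v‖ ≤ rad K} from hv)]; simpa using h0
  by_cases hy : ‖z.2.1 - x‖ ≤ rad K * exp z.1
  swap
  · unfold psiFun
    rw [indicator_of_notMem (show z.1 ∉ {t | ‖z.2.1 - x‖ ≤ rad K * exp t} from hy)]; simpa using h0
  unfold psiFun
  rw [indicator_of_mem (show z.2.2 ∈ {v : E | ‖v‖ ≤ rad K} from hv),
    indicator_of_mem (show z.1 ∈ {t | ‖z.2.1 - x‖ ≤ rad K * exp t} from hy), one_mul, pot,
    mul_comm (prof _)]
  refine mul_le_mul_of_nonneg_left (prof_antitone ?_) (exp_pos _).le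
  have hK : 0 ≤ K := (hc.bJ 0 0).nonneg
  have hδ : 0 < rad K := by unfold rad; positivity
  have hv' : ∀ l, |z.2.2 l| ≤ rad K := fun l =>
    (by simpa using norm_le_pi_norm z.2.2 l : |z.2.2 l| ≤ ‖z.2.2‖).trans hv
  have hw : ∀ m, |disp J x z.2.1 z.1 z.2.2 m| ≤ rad K * (1 + 4 * K) := fun m => by
    refine (abs_sub _ _).trans ?_
    rw [mul_add, mul_one, abs_mul, abs_of_pos (exp_pos _)]
    refine add_le_add ?_ ((abs_sum4_le fun l => ?_).trans_eq
      (show 4 * (K * rad K) = rad K * (4 * K) by ring))
    · have h1 : |z.2.1 m - x m| ≤ rad K * exp z.1 :=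
        (by simpa using norm_le_pi_norm (z.2.1 - x) m : |z.2.1 m - x m| ≤ ‖z.2.1 - x‖).trans hy
      calc exp (-z.1) * |z.2.1 m - x m| ≤ exp (-z.1) * (rad K * exp z.1) :=
            mul_le_mul_of_nonneg_left h1 (exp_pos _).le
        _ = rad K := by rw [exp_neg]; field_simp
    · rw [abs_mul]; exact mul_le_mul ((hc.bJ m l).1 x) (hv' l) (abs_nonneg _) hK
  have hs : rad K * (1 + 4 * K) ≤ 1 / 4 := by
    unfold rad
    rw [inv_mul_le_iff₀ (by positivity)]
    linarith
  have hs2 : rad K ≤ 1 / 4 := by
    nlinarith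
  unfold qd sq
  simp only [Fin.sum_univ_four]
  have hsq : ∀ {p : ℝ}, |p| ≤ 1 / 4 → p * p ≤ 1 / 16 := fun {p} h => by
    nlinarith [abs_le.1 h]
  linarith [hsq ((hw 0).trans hs), hsq ((hw 1).trans hs), hsq ((hw 2).trans hs),
    hsq ((hw 3).trans hs), hsq ((hv' 0).trans hs2), hsq ((hv' 1).trans hs2),
    hsq ((hv' 2).trans hs2), hsq ((hv' 3).trans hs2)]

namespace Setup

variable (S : Setup J μ Θ L W B)
include S

theorem integrable_psi (r a b : ℝ) (x : E) : Integrable (fun y => psi r a b ‖y - x‖) μ := by
  have := S.finite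
  have : IsFiniteMeasure (volume.restrict (Icc a b)) :=
    isFiniteMeasure_restrict.2 measure_Icc_lt_top.ne
  have hm : Measurable fun p : ℝ × E => psiFun r ‖p.2 - x‖ p.1 := by
    unfold psiFun
    exact Measurable.indicator (f := fun p : ℝ × E => exp (-2 * p.1)) (by fun_prop)
      (measurableSet_le (f := fun p : ℝ × E => ‖p.2 - x‖) (g := fun p => r * exp p.1)
        (by fun_prop) (by fun_prop))
  have hi : Integrable (fun p : ℝ × E => psiFun r ‖p.2 - x‖ p.1)
      ((volume.restrict (Icc a b)).prod μ) := by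
    refine Integrable.of_bound hm.aestronglyMeasurable (exp (-2 * a)) ?_
    filter_upwards [Measure.quasiMeasurePreserving_fst.ae (ae_restrict_mem measurableSet_Icc)]
      with p hp
    rw [Real.norm_eq_abs, abs_of_nonneg (psiFun_nonneg _ _ _)]
    exact (psiFun_le _ _ _).trans (exp_le_exp.2 (by linarith [hp.1]))
  exact hi.integral_prod_right

theorem integral_tyv_mul {h : E → ℝ} (hh : Measurable h) {H : ℝ} (hH : ∀ v, |h v| ≤ H)
    (r a b : ℝ) (x : E) :
    Integrable (fun z => h z.2.2 * psiFun r ‖z.2.1 - x‖ z.1) (tyv μ a b) ∧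
    ∫ z, h z.2.2 * psiFun r ‖z.2.1 - x‖ z.1 ∂tyv μ a b
      = (∫ v in closedBall (0 : E) 1, h v) * ∫ y, psi r a b ‖y - x‖ ∂μ := by
  have := S.finite
  have := S.finite_yv
  have := S.finite_tyv a b
  have : IsFiniteMeasure (volume.restrict (closedBall (0 : E) 1)) :=
    isFiniteMeasure_restrict.2 measure_closedBall_lt_top.ne
  have hm : Measurable fun p : ℝ × E × E => psiFun r ‖p.2.1 - x‖ p.1 := by
    unfold psiFun
    exact Measurable.indicator (f := fun p : ℝ × E × E => exp (-2 * p.1)) (by fun_prop)
      (measurableSet_le (f := fun p : ℝ × E × E => ‖p.2.1 - x‖) (g := fun p => r * exp p.1)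
        (by fun_prop) (by fun_prop))
  have hi : Integrable (fun z : ℝ × E × E => h z.2.2 * psiFun r ‖z.2.1 - x‖ z.1) (tyv μ a b) := by
    refine Integrable.of_bound ((hh.comp (by fun_prop)).mul hm).aestronglyMeasurable
      (H * exp (-2 * a)) ?_
    filter_upwards [Measure.quasiMeasurePreserving_fst.ae (ae_restrict_mem measurableSet_Icc)]
      with p hp
    rw [norm_mul, Real.norm_eq_abs, Real.norm_eq_abs, abs_of_nonneg (psiFun_nonneg _ _ _)]
    exact mul_le_mul (hH _) ((psiFun_le _ _ _).trans (exp_le_exp.2 (by linarith [hp.1])))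
      (psiFun_nonneg _ _ _) ((abs_nonneg _).trans (hH p.2.2))
  refine ⟨hi, ?_⟩
  rw [tyv, integral_prod_symm _ hi, yv]
  calc ∫ p, (∫ t in Icc a b, h p.2 * psiFun r ‖p.1 - x‖ t) ∂μ.prod _
      = ∫ p, psi r a b ‖p.1 - x‖ * h p.2 ∂μ.prod (volume.restrict (closedBall (0 : E) 1)) := by
        refine integral_congr_ae (Eventually.of_forall fun p => ?_)
        show ∫ t in Icc a b, h p.2 * psiFun r ‖p.1 - x‖ t = _
        rw [integral_const_mul, mul_comm]; rfl
    _ = _ := by rw [integral_prod_mul (fun y => psi r a b ‖y - x‖) h, mul_comm]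

theorem upot_nonneg (a b : ℝ) (x : E) : 0 ≤ upot J μ a b x :=
  integral_nonneg fun z => by
    simpa [pot] using mul_nonneg (exp_pos _).le (prof_nonneg (qd J x z.2.1 z.1 z.2.2))

theorem upot_mono {a a' : ℝ} (h : a' ≤ a) (b : ℝ) (x : E) :
    upot J μ a b x ≤ upot J μ a' b x := by
  have := S.finite
  have := S.finite_yv
  refine integral_mono_measure ?_ (Eventually.of_forall fun z => by
    simpa [pot] using mul_nonneg (exp_pos _).le (prof_nonneg (qd J x z.2.1 z.1 z.2.2))) ?_
  · exact Measure.prod_mono (Measure.restrict_mono (Icc_subset_Icc_left h) le_rfl) le_rfl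
  · refine (S.integrable_cont (F := fun z => pot J x z.2.1 z.1 z.2.2) ?_ a' b).congr
      (Eventually.of_forall fun z => by simp)
    exact ((contDiff_pot S.smooth).comp (f := fun z : ℝ × E × E => (x, (z.2.1, z.1, z.2.2)))
      (by fun_prop)).continuous

/-- The potential dominates the truncated kernels, up to a constant. -/
theorem psi_le_upot (hc : Coeff J K) :
    ∃ c > 0, ∀ a b : ℝ, ∀ x, c * ∫ y, psi (rad K) a b ‖y - x‖ ∂μ ≤ upot J μ a b x := by
  have hK : 0 ≤ K := (hc.bJ 0 0).nonneg
  have hδ : 0 < rad K := by unfold rad; positivity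
  have hδ1 : rad K ≤ 1 := inv_le_one_of_one_le₀ (by linarith)
  have hset : {v : E | ‖v‖ ≤ rad K} = closedBall 0 (rad K) := by
    ext v; simp
  refine ⟨prof (1 / 2) * (volume : Measure E).real (closedBall (0 : E) (rad K)),
    mul_pos (prof_pos (by norm_num)) ?_, fun a b x => ?_⟩
  · exact ENNReal.toReal_pos (measure_closedBall_pos volume _ hδ).ne' measure_closedBall_lt_top.ne
  have hm : Measurable ({v : E | ‖v‖ ≤ rad K}.indicator fun _ => (1 : ℝ)) :=
    measurable_const.indicator (measurableSet_le (by fun_prop) measurable_const)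
  obtain ⟨hi, he⟩ := S.integral_tyv_mul hm (H := 1)
    (fun v => by unfold indicator; split <;> simp) (rad K) a b x
  have hv : ∫ v in closedBall (0 : E) 1, {v : E | ‖v‖ ≤ rad K}.indicator (fun _ => (1 : ℝ)) v
      = (volume : Measure E).real (closedBall (0 : E) (rad K)) := by
    rw [hset, setIntegral_indicator measurableSet_closedBall,
      inter_eq_self_of_subset_right (closedBall_subset_closedBall hδ1)]
    simp
  rw [mul_assoc, ← hv, ← he, ← integral_const_mul]
  refine integral_mono (hi.const_mul _) ?_ fun z => by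
    simpa using pot_lower hc x z
  refine (S.integrable_cont (F := fun z => pot J x z.2.1 z.1 z.2.2) ?_ a b).congr
    (Eventually.of_forall fun z => by simp)
  exact ((contDiff_pot S.smooth).comp (f := fun z : ℝ × E × E => (x, (z.2.1, z.1, z.2.2)))
    (by fun_prop)).continuous

theorem integral_capk (R a b : ℝ) (x : E) :
    ∫ z, capk R x z ∂tyv μ a b
      = (volume : Measure E).real (closedBall (0 : E) 1) * ∫ y, psi R a b ‖y - x‖ ∂μ := by
  have e : capk R x = fun z => (fun _ : E => (1 : ℝ)) z.2.2 * psiFun R ‖z.2.1 - x‖ z.1 := by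
    funext z; simp [capk, psiFun, indicator]
  rw [e, (S.integral_tyv_mul measurable_const (H := 1) (fun _ => by simp) R a b x).2]
  simp

theorem capk_le_upot (hc : Coeff J K) :
    ∃ C, 0 ≤ C ∧ ∀ a b : ℝ, a ≤ b → ∀ x,
      ∫ z, capk (1 + 4 * K) x z ∂tyv μ a b ≤ C * (upot J μ a b x + exp (-2 * b)) := by
  have := S.finite
  obtain ⟨c, hc0, hle⟩ := S.psi_le_upot hc
  have hK : 0 ≤ K := (hc.bJ 0 0).nonneg
  have hδ : 0 < rad K := by unfold rad; positivity
  have hδR : rad K ≤ 1 + 4 * K := (inv_le_one_of_one_le₀ (by linarith)).trans (by linarith)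
  set h := log ((1 + 4 * K) / rad K)
  have hh : 0 ≤ h := log_nonneg ((one_le_div hδ).2 hδR)
  set V := (volume : Measure E).real (closedBall (0 : E) 1)
  set C := V * exp (2 * h) * max c⁻¹ (h * μ.real univ)
  refine ⟨C, by positivity, fun a b hab x => ?_⟩
  rw [S.integral_capk]
  have h1 : ∫ y, psi (1 + 4 * K) a b ‖y - x‖ ∂μ
      ≤ exp (2 * h) * ((∫ y, psi (rad K) a b ‖y - x‖ ∂μ) + h * exp (-2 * b) * μ.real univ) := by
    refine (integral_mono (S.integrable_psi _ _ _ _)
      (((S.integrable_psi (rad K) a b x).add (integrable_const _)).const_mul _)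
      fun y => psi_scale hδ hδR hab _).trans_eq ?_
    rw [integral_const_mul]
    simp only [Pi.add_apply]
    rw [integral_add (S.integrable_psi _ _ _ _) (integrable_const _), integral_const, smul_eq_mul]
    ring
  have h2 : ∫ y, psi (rad K) a b ‖y - x‖ ∂μ ≤ c⁻¹ * upot J μ a b x := by
    rw [inv_mul_eq_div, le_div_iff₀' hc0]; exact hle a b x
  have hu := S.upot_nonneg a b x
  calc V * ∫ y, psi (1 + 4 * K) a b ‖y - x‖ ∂μ
      ≤ V * (exp (2 * h) * (c⁻¹ * upot J μ a b x + h * exp (-2 * b) * μ.real univ)) := by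
        refine mul_le_mul_of_nonneg_left (h1.trans ?_) measureReal_nonneg
        gcongr
    _ ≤ V * (exp (2 * h) * (max c⁻¹ (h * μ.real univ) * upot J μ a b x
          + max c⁻¹ (h * μ.real univ) * exp (-2 * b))) := by
        rw [mul_right_comm h]
        gcongr
        · exact le_max_left _ _
        · exact le_max_right _ _
    _ = _ := by ring

theorem pot_le_capk (hc : Coeff J K) (x : E) (z : ℝ × E × E) :
    pot J x z.2.1 z.1 z.2.2 ≤ capk (1 + 4 * K) x z := by
  by_cases hq : qd J x z.2.1 z.1 z.2.2 ≤ 1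
  · rw [capk, indicator_of_mem (show z ∈ {w : ℝ × E × E | ‖w.2.1 - x‖ ≤ (1 + 4 * K) * exp w.1}
      from hc.norm_sub_le hq)]
    exact mul_le_of_le_one_right (exp_pos _).le (prof_le_one _)
  · rw [(kernels_zero S.smooth (not_le.1 hq)).2.1]
    exact indicator_nonneg (fun _ _ => (exp_pos _).le) _

/-- The smoothed potential stays bounded exactly where the potential is finite. -/
theorem upot_bounded_iff (hc : Coeff J K) (b : ℝ) (x : E) :
    (∃ M, ∀ n : ℕ, upot J μ (b - n) b x ≤ M) ↔ potential μ x ≠ ⊤ := by
  have := S.finite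
  have hK : 0 ≤ K := (hc.bJ 0 0).nonneg
  constructor
  · rintro ⟨M, hM⟩ htop
    obtain ⟨c, hc0, hle⟩ := S.psi_le_upot hc
    set r := rad K
    have hr : 0 < r := by simp only [r, rad]; positivity
    set g : ℕ → E → ℝ≥0∞ := fun n y => ENNReal.ofReal (psi r (b - n) b ‖y - x‖)
    have hgm : ∀ n, AEMeasurable (g n) μ := fun n =>
      (S.integrable_psi r _ _ x).aemeasurable.ennreal_ofReal
    have hmono : ∀ y, Monotone fun n => g n y := fun y n m hnm =>
      ENNReal.ofReal_le_ofReal (psi_mono_interval (sub_le_sub_left (Nat.cast_le.2 hnm) b) r _)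
    have hint : ∀ n, ∫⁻ y, g n y ∂μ ≤ ENNReal.ofReal (M / c) := fun n => by
      rw [← ofReal_integral_eq_lintegral_ofReal (S.integrable_psi r _ _ x)
        (Eventually.of_forall fun y => psi_nonneg _ _ _ _)]
      refine ENNReal.ofReal_le_ofReal ?_
      rw [le_div_iff₀' hc0]
      exact (hle _ _ x).trans (hM n)
    have hsup : ∫⁻ y, ⨆ n, g n y ∂μ ≤ ENNReal.ofReal (M / c) := by
      rw [lintegral_iSup' hgm (Eventually.of_forall hmono)]
      exact iSup_le hint
    set ρ := r * exp (b - 1)
    have hρ : 0 < ρ := by positivity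
    have hlow : ∀ y, pole x y ≤ ENNReal.ofReal (exp 2 / r ^ 2) * (⨆ n, g n y)
        + ENNReal.ofReal (ρ ^ 2)⁻¹ := by
      intro y
      rcases eq_or_ne x y with rfl | hne
      · refine le_add_right (le_of_eq ?_)
        rw [pole_self]
        have : (⨆ n, g n x) = ⊤ := by
          refine ENNReal.eq_top_of_forall_nnreal_le fun q => ?_
          obtain ⟨n, hn⟩ := exists_nat_ge ((q : ℝ) / exp (-2 * b))
          refine le_trans ?_ (le_iSup _ n)
          rw [← ENNReal.ofReal_coe_nnreal]
          refine ENNReal.ofReal_le_ofReal ?_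
          rw [sub_self, norm_zero, psi_eq_interval (by simp)]
          refine le_trans ?_ (intervalIntegral.integral_mono_on (f := fun _ => exp (-2 * b))
            (by simp) intervalIntegrable_const (intervalIntegrable_psiFun _ _ _ _) fun t ht => ?_)
          · simp
            rw [div_le_iff₀ (exp_pos _)] at hn
            simpa using hn
          · rw [psiFun, indicator_of_mem (show t ∈ {t | (0 : ℝ) ≤ r * exp t} from (by positivity :
              (0 : ℝ) ≤ r * exp t))]
            exact exp_le_exp.2 (by linarith [ht.2])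
        rw [this, ENNReal.mul_top]
        simp only [ne_eq, ENNReal.ofReal_eq_zero, not_le]
        positivity
      have hd : 0 < ‖y - x‖ := norm_pos_iff.2 (sub_ne_zero.2 (Ne.symm hne))
      rw [pole_eq hne, dist_comm, dist_eq_norm]
      rcases le_or_gt ‖y - x‖ ρ with hle' | hgt
      · refine le_add_right ?_
        set m := log (‖y - x‖ / r) with hm
        have hmb : m ≤ b - 1 := by
          rw [hm, log_le_iff_le_exp (div_pos hd hr), div_le_iff₀ hr, mul_comm]; exact hle'
        obtain ⟨n, hn⟩ := exists_nat_ge (b - m)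
        refine le_trans ?_ (mul_le_mul_right (le_iSup _ n) _)
        rw [← ENNReal.ofReal_mul (by positivity)]
        refine ENNReal.ofReal_le_ofReal ?_
        have h1 : exp (-2 * (m + 1)) ≤ psi r (b - n) b ‖y - x‖ := by
          rw [psi_eq_interval (by simp)]
          refine le_trans ?_ (intervalIntegral.integral_mono_interval (c := b - n) (d := b)
            (a := m) (b := m + 1) (by linarith) (by linarith) (by linarith)
            (Eventually.of_forall fun t => psiFun_nonneg r _ t) (intervalIntegrable_psiFun _ _ _ _))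
          refine le_trans (le_of_eq ?_) (intervalIntegral.integral_mono_on
            (f := fun _ => exp (-2 * (m + 1))) (by linarith) intervalIntegrable_const
            (intervalIntegrable_psiFun _ _ _ _) fun t ht => ?_)
          · simp
          · rw [psiFun, indicator_of_mem (show t ∈ {t | ‖y - x‖ ≤ r * exp t} from ?_)]
            · exact exp_le_exp.2 (by linarith [ht.2])
            · have := exp_le_exp.2 ht.1
              rw [hm, exp_log (div_pos hd hr), div_le_iff₀ hr, mul_comm] at this
              exact this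
        refine le_trans (le_of_eq ?_) (mul_le_mul_of_nonneg_left h1 (by positivity))
        rw [show -2 * (m + 1) = -(m + m + 2) by ring, exp_neg, exp_add, exp_add, hm,
          exp_log (div_pos hd hr)]
        field_simp
      · refine le_add_left (ENNReal.ofReal_le_ofReal ?_)
        exact inv_anti₀ (by positivity) (pow_le_pow_left₀ hρ.le hgt.le 2)
    refine (lintegral_mono hlow).trans_lt ?_ |>.ne htop
    rw [lintegral_add_right _ measurable_const, lintegral_const_mul' _ _ ENNReal.ofReal_ne_top,
      lintegral_const]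
    exact ENNReal.add_lt_top.2 ⟨ENNReal.mul_lt_top ENNReal.ofReal_lt_top
      (hsup.trans_lt ENNReal.ofReal_lt_top), ENNReal.mul_lt_top ENNReal.ofReal_lt_top
      (measure_lt_top _ _)⟩
  · intro hfin
    set R := 1 + 4 * K
    have hR : 0 < R := by positivity
    refine ⟨(volume : Measure E).real (closedBall (0 : E) 1) * (R ^ 2 / 2 * (potential μ x).toReal),
      fun n => ?_⟩
    have h1 : upot J μ (b - n) b x ≤ ∫ z, capk R x z ∂tyv μ (b - n) b := by
      refine integral_mono_of_nonneg (Eventually.of_forall fun z => ?_) (S.integrable_capk _ _ _ _)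
        (Eventually.of_forall fun z => by simpa using S.pot_le_capk hc x z)
      simpa [pot] using mul_nonneg (exp_pos _).le (prof_nonneg (qd J x z.2.1 z.1 z.2.2))
    refine h1.trans ((S.integral_capk R _ _ x).trans_le
      (mul_le_mul_of_nonneg_left ?_ measureReal_nonneg))
    rw [integral_eq_lintegral_of_nonneg_ae (Eventually.of_forall fun y => psi_nonneg _ _ _ _)
      (S.integrable_psi _ _ _ _).aestronglyMeasurable,
      show R ^ 2 / 2 * (potential μ x).toReal
        = (ENNReal.ofReal (R ^ 2 / 2) * potential μ x).toReal by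
          rw [ENNReal.toReal_mul, ENNReal.toReal_ofReal (by positivity)]]
    refine ENNReal.toReal_mono (ENNReal.mul_ne_top ENNReal.ofReal_ne_top hfin) ?_
    rw [potential, ← lintegral_const_mul' _ _ ENNReal.ofReal_ne_top]
    refine lintegral_mono fun y => ?_
    rcases eq_or_ne x y with rfl | hne
    · rw [pole_self, ENNReal.mul_top (by simp; positivity)]
      exact le_top
    · rw [pole_eq hne, dist_comm, dist_eq_norm, ← ENNReal.ofReal_mul (by positivity)]
      exact ENNReal.ofReal_le_ofReal
        (psi_le_pole hR (norm_pos_iff.2 (sub_ne_zero.2 (Ne.symm hne))))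

end Setup

end Vale.Agent.P204.Tame.ElMir
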