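import Vale.Agent.P204.Tame.ElMir.Lower
import Vale.Agent.P204.Tame.ElMir.Potential
import Vale.Agent.P204.Tame.ElMir.Point

/-!
The energy of the logarithm of the potential is bounded, and the cutoff functions built from it
give closed currents up to an error tending to zero.
-/

namespace Vale.Agent.P204.Tame.ElMir

open scoped ContDiff Matrix NNReal Topology
open MeasureTheory Metric Set Real

/-- The data of the cutoff argument near a compact set. -/
structure Loc (J : E → M) (μ : Measure E) (Θ : E → M) (L W : Set E) (B K : ℝ) (ζ : E → ℝ)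
    (T A : ℝ) : Prop where
  setup : Setup J μ Θ L W B
  coeff : Coeff J K
  pt : PtCond J μ Θ W
  cut : IsTest W ζ
  cut01 : ∀ x, 0 ≤ ζ x ∧ ζ x ≤ 1
  inside : ∀ x ∈ tsupport ζ, Inside J W T x
  exact : ∀ S : E → E, (∀ i, IsTest W fun x => S x i) →
    ∫ x, wd (J x) (Θ x) (dOne S x) ∂μ = 0
  ball : ∀ x ∈ tsupport ζ, ∀ t ≤ T,
    μ.real (closedBall x ((1 + 4 * K) * exp t)) ≤ A * exp (2 * t)

/-- The potential, shifted to be at least `2`. -/
noncomputable def fpot (J : E → M) (μ : Measure E) (T : ℝ) (n : ℕ) (x : E) : ℝ :=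
  2 + upot J μ (T - n) T x / 2

/-- The gradient. -/
noncomputable def grad (f : E → ℝ) (x : E) : E := fun i => pd i f x

theorem dOne_smul {g : E → ℝ} {H : E → E} {x : E} (hg : DifferentiableAt ℝ g x)
    (hH : ∀ i, DifferentiableAt ℝ (fun y => H y i) x) :
    dOne (fun y => g y • H y) x = wdg (grad g x) (H x) + g x • dOne H x := by
  ext i j
  show pd i (fun y => g y * H y j) x - pd j (fun y => g y * H y i) x = _
  rw [pd_mul hg (hH j), pd_mul hg (hH i)]
  simp [dOne, wdg, grad]
  ring

theorem wd_add (J a u v : M) : wd J a (u + v) = wd J a u + wd J a v := by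
  simp only [wd, pfq, Matrix.add_apply]; ring

theorem wd_smul (J a : M) (r : ℝ) (u : M) : wd J a (r • u) = r * wd J a u := by
  simp only [wd, pfq, Matrix.smul_apply, smul_eq_mul]; ring

theorem wd_sub (J a u v : M) : wd J a (u - v) = wd J a u - wd J a v := by
  simp only [wd, pfq, Matrix.sub_apply]; ring

theorem sum_abs_le {u : M} {U : ℝ} (h : ∀ i j, |u i j| ≤ U) : ∑ i, ∑ j, |u i j| ≤ 16 * U := by
  refine (Finset.sum_le_sum fun i _ => Finset.sum_le_sum fun j _ => h i j).trans_eq ?_
  simp; ring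

theorem abs_wd_le {J a u : M} {B U : ℝ} (hB : ∀ i j, |a i j| ≤ B) (hU : ∀ i j, |u i j| ≤ U) :
    |wd J a u| ≤ 6 * (16 * B * (16 * U)) := by
  rw [wd, abs_mul]
  refine (mul_le_of_le_one_left (abs_nonneg _) (abs_sgnJ_le _)).trans
    ((abs_pfq_le _ _).trans (mul_le_mul_of_nonneg_left ?_ (by norm_num)))
  exact mul_le_mul (sum_abs_le hB) (sum_abs_le hU)
    (Finset.sum_nonneg fun i _ => Finset.sum_nonneg fun j _ => abs_nonneg _)
    (mul_nonneg (by norm_num) ((abs_nonneg _).trans (hB 0 0)))

theorem qf_le {J a : M} {B K X : ℝ} (hB : ∀ i j, |a i j| ≤ B) (hK : ∀ i j, |J i j| ≤ K) {ξ : E}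
    (hX : ∀ i, |ξ i| ≤ X) : |qf J a ξ| ≤ 3072 * B * X * (4 * (K * X)) := by
  refine abs_wd_wdg_le hB hX fun i => ?_
  rw [Pi.neg_apply, abs_neg]
  exact abs_mulVec_le (fun i j => hK j i) hX i

theorem key_ineq (hL : LinearFacts) {J a : M} (hJ : J * J = -1) (ha : Psd J a) (P R Z : E)
    {CR CZ : ℝ} (hR : qf J a (Jᵀ *ᵥ R) ≤ CR) (hZ : qf J a Z ≤ CZ) :
    -qf J a P - wd J a (wdg P R) + 2 * wd J a (wdg Z (-(Jᵀ *ᵥ P))) + 2 * wd J a (wdg Z R)
      ≤ -(1 / 2) * qf J a P + 5 * CZ + 2 * CR := by
  have hqR0 := qf_nonneg hL hJ ha (Jᵀ *ᵥ R)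
  have hqZ0 := qf_nonneg hL hJ ha Z
  have b1 := abs_le.1 (abs_wd_wdg hL hJ ha P R (s := 1 / 4) (by norm_num))
  have b2 := abs_le.1 (abs_wd_wdg hL hJ ha Z (-(Jᵀ *ᵥ P)) (s := 2) (by norm_num))
  rw [Matrix.mulVec_neg, transpose_sq hJ, neg_neg] at b2
  have b3 := abs_le.1 (abs_wd_wdg hL hJ ha Z R (s := 1 / 2) (by norm_num))
  norm_num at b1 b2 b3
  linarith

theorem deriv_prof_bound : ∃ P, ∀ r : ℝ, -1 ≤ r → |deriv prof r| ≤ P := by
  obtain ⟨P, hP⟩ := (isCompact_Icc (a := (-1 : ℝ)) (b := 1)).exists_bound_of_continuousOn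
    contDiff_dens.continuous.continuousOn
  refine ⟨max P 0 / 2, fun r hr => ?_⟩
  have : |dens r| ≤ max P 0 := by
    rcases le_or_gt r 1 with h | h
    · exact (hP r ⟨hr, h⟩).trans (le_max_left _ _)
    · simp [dens_zero h]
  rw [dens, abs_mul] at this
  rw [abs_neg, abs_two] at this
  linarith

variable {J : E → M} {μ : Measure E} {Θ : E → M} {L W : Set E} {B K : ℝ} {ζ : E → ℝ} {T A : ℝ}

namespace Loc

variable (D : Loc J μ Θ L W B K ζ T A)
include D

theorem contDiff_fpot (n : ℕ) : ContDiff ℝ ∞ (fpot J μ T n) :=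
  contDiff_const.add ((D.setup.contDiff_upot _ _).div_const 2)

theorem two_le_fpot (n : ℕ) (x : E) : 2 ≤ fpot J μ T n x := by
  have := D.setup.upot_nonneg (T - n) T x
  unfold fpot; linarith

theorem pd_fpot (n : ℕ) (i : Fin 4) (x : E) :
    pd i (fpot J μ T n) x = pd i (upot J μ (T - n) T) x / 2 := by
  have hd : DifferentiableAt ℝ (upot J μ (T - n) T) x :=
    (D.setup.contDiff_upot _ _).differentiable (by simp) x
  show pd i (fun y => 2 + upot J μ (T - n) T y / 2) x = _
  simp only [div_eq_inv_mul]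
  rw [pd_add (differentiableAt_const _) (hd.const_mul _), pd_const, pd_const_mul _ hd]
  ring

theorem ae_mem : ∀ᵐ x ∂μ, x ∈ W → J x * J x = -1 ∧ Psd (J x) (Θ x) ∧ ∀ i j, |Θ x i j| ≤ B := by
  filter_upwards [D.pt, D.setup.bound] with x h1 h2 h
  exact ⟨(h1 h).1, (h1 h).2.1, h2⟩

theorem measurable_wd {u : E → M} (hu : ∀ i j, Measurable fun x => u x i j) :
    Measurable fun x => wd (J x) (Θ x) (u x) := by
  have hJ : Continuous J := continuous_pi fun i => continuous_pi fun j => (D.setup.smooth i j).continuous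
  have hw : Continuous (wmat : M → M) := continuous_id.matrix_transpose.matrix_mul continuous_gmat
  have hp : Continuous fun x => pfq (wmat (J x)) (wmat (J x)) := by
    have hh : ∀ i j, Continuous fun x => wmat (J x) i j := fun i j =>
      (continuous_apply_apply i j).comp (hw.comp hJ)
    unfold pfq; fun_prop
  have hsign : Measurable Real.sign := by
    unfold Real.sign
    exact Measurable.ite measurableSet_Iio measurable_const
      (Measurable.ite measurableSet_Ioi measurable_const measurable_const)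
  have := D.setup.meas
  unfold wd sgnJ
  refine (hsign.comp hp.measurable).mul ?_
  unfold pfq
  fun_prop

theorem measurable_qf {ξ : E → E} (hξ : ∀ i, Measurable fun x => ξ x i) :
    Measurable fun x => qf (J x) (Θ x) (ξ x) := by
  refine D.measurable_wd (u := fun x => wdg (ξ x) (-((J x)ᵀ *ᵥ ξ x))) fun i j => ?_
  have := fun a b => (D.setup.smooth a b).continuous.measurable
  simp only [wdg_apply, Pi.neg_apply, Matrix.mulVec, dotProduct, Matrix.transpose_apply]
  fun_prop

theorem theta_skew (t : ℝ) (x : E) : (theta J μ Θ t x)ᵀ = -theta J μ Θ t x := by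
  have := D.setup.finite
  ext a b
  show theta J μ Θ t x b a = -theta J μ Θ t x a b
  unfold theta
  rw [← integral_neg]
  refine integral_congr_ae ?_
  filter_upwards [Measure.quasiMeasurePreserving_fst.ae D.setup.skew] with z hz
  rw [Finset.sum_comm, ← Finset.sum_neg_distrib]
  refine Finset.sum_congr rfl fun i _ => ?_
  rw [← Finset.sum_neg_distrib]
  exact Finset.sum_congr rfl fun j _ => by rw [hz i j]; ring

/-- A bounded measurable function vanishing off `L` is integrable. -/
theorem integrable_bdd {f : E → ℝ} (hf : Measurable f) {C : ℝ} (hC : ∀ᵐ x ∂μ, |f x| ≤ C) :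
    Integrable f μ := by
  have := D.setup.finite
  exact Integrable.of_bound hf.aestronglyMeasurable C hC

theorem integrable_qf {ξ : E → E} (hξ : Continuous ξ) (hs : HasCompactSupport ξ) :
    Integrable (fun x => qf (J x) (Θ x) (ξ x)) μ := by
  obtain ⟨p, hp⟩ := hs.exists_bound_of_continuous hξ
  refine D.integrable_bdd (D.measurable_qf fun i => ((continuous_apply i).comp hξ).measurable)
    (C := 3072 * max B 0 * p * (4 * (K * p))) ?_
  filter_upwards [D.setup.bound] with x hB
  exact qf_le (fun i j => (hB i j).trans (le_max_left _ _)) (fun i j => (D.coeff.bJ i j).1 x)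
    fun i => (by simpa using norm_le_pi_norm (ξ x) i : |ξ x i| ≤ ‖ξ x‖).trans (hp x)

theorem integrable_wd {u : E → Fin 4 → Fin 4 → ℝ} (hu : Continuous u) (hs : HasCompactSupport u) :
    Integrable (fun x => wd (J x) (Θ x) (u x)) μ := by
  obtain ⟨b, hb⟩ := hs.exists_bound_of_continuous hu
  refine D.integrable_bdd (D.measurable_wd fun i j =>
    ((continuous_apply_apply i j).comp hu).measurable) (C := 6 * (16 * max B 0 * (16 * b))) ?_
  filter_upwards [D.setup.bound] with x hB
  exact abs_wd_le (fun i j => (hB i j).trans (le_max_left _ _)) fun i j =>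
    ((norm_le_pi_norm (u x i) j).trans (norm_le_pi_norm (u x) i)).trans (hb x)

/-- The energy bound. -/
theorem energy (hL : LinearFacts) :
    ∃ C, ∀ n : ℕ,
      Integrable (fun x => qf (J x) (Θ x) ((ζ x / fpot J μ T n x) • grad (fpot J μ T n) x)) μ ∧
      ∫ x, qf (J x) (Θ x) ((ζ x / fpot J μ T n x) • grad (fpot J μ T n) x) ∂μ ≤ C := by
  have S := D.setup
  have := S.finite
  obtain ⟨Cr, hCr0, hCr⟩ := S.hform_decomp D.coeff D.pt
  obtain ⟨Cc, hCc0, hCc⟩ := S.capk_le_upot D.coeff
  obtain ⟨Cl, hCl0, hCl⟩ := S.theta_lower D.coeff D.pt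
  obtain ⟨Ct, hCt0, hCt⟩ := S.theta_bound D.coeff T
  obtain ⟨Z, hZ⟩ : ∃ Z, ∀ x i, |grad ζ x i| ≤ Z := by
    obtain ⟨k, hk⟩ := exists_bdLip D.cut.smooth D.cut.compact
    exact ⟨k, fun x i => hk.pd_le i x⟩
  set B₀ := max B 0
  set R₀ := Cr * Cc * (2 + exp (-2 * T))
  set CZ := 3072 * B₀ * max Z 0 * (4 * (K * max Z 0))
  set CR := 12288 * B₀ * K * R₀ ^ 2
  set C1 := 3072 * B₀ * (4 * K)
  set C2 := 6 * ((16 * B₀) * (16 * Ct))
  set C := 5 * CZ + 2 * CR + C2 + Cl * |A| * (4 * C1)
  refine ⟨2 * (C * μ.real univ), fun n => ?_⟩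
  set F := fpot J μ T n with hF
  set H := hform J μ Θ (T - n) T
  set g : E → ℝ := fun x => ζ x * ζ x / F x
  set r : E → E := fun x => fun i => H x i - dc J F x i
  set P : E → E := fun x => (ζ x / F x) • grad F x
  have hK : 0 ≤ K := (D.coeff.bJ 0 0).nonneg
  have hFs : ContDiff ℝ ∞ F := D.contDiff_fpot n
  have hF2 : ∀ x, 2 ≤ F x := D.two_le_fpot n
  have hFne : ∀ x, F x ≠ 0 := fun x => by linarith [hF2 x]
  have hgs : ContDiff ℝ ∞ g := (D.cut.smooth.mul D.cut.smooth).div hFs hFne
  have hgsupp : tsupport g ⊆ tsupport ζ := by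
    refine closure_mono fun x hx => ?_
    intro h0
    exact hx (by simp [g, h0])
  have hHs : ∀ i, ContDiff ℝ ∞ fun x => H x i := fun i => S.contDiff_hform _ _ i
  set Sf : E → E := fun x => g x • H x
  have htest : ∀ i, IsTest W fun x => Sf x i := fun i => by
    have hs : tsupport (fun x => g x * H x i) ⊆ tsupport ζ := tsupport_mul_subset_left.trans hgsupp
    exact ⟨hgs.mul (hHs i), D.cut.compact.of_isClosed_subset (isClosed_tsupport _) hs,
      hs.trans D.cut.supp⟩
  set G : E → ℝ := fun x => wd (J x) (Θ x) (dOne Sf x)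
  have hpdc : ∀ i j, Continuous fun x => dOne Sf x i j := fun i j =>
    (contDiff_pd (htest j).smooth i).continuous.sub (contDiff_pd (htest i).smooth j).continuous
  have hGm : Measurable G := D.measurable_wd fun i j => (hpdc i j).measurable
  have hzero : ∀ x ∉ tsupport ζ, dOne Sf x = 0 ∧ P x = 0 := fun x hx => by
    refine ⟨?_, by simp [P, image_eq_zero_of_notMem_tsupport hx]⟩
    ext i j
    have h : ∀ l, (fun y => Sf y l) =ᶠ[𝓝 x] fun _ => (0 : ℝ) := fun l => by
      filter_upwards [(isClosed_tsupport ζ).isOpen_compl.mem_nhds hx] with y hy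
      simp [Sf, g, image_eq_zero_of_notMem_tsupport hy]
    simp [dOne, pd, (h j).fderiv_eq, (h i).fderiv_eq]
  have hqz : ∀ J' a : M, qf J' a 0 = 0 := fun J' a => by
    simp [qf, wd, pfq, wdg_apply]
  -- the pointwise inequality
  have hkey : ∀ᵐ x ∂μ, G x ≤ -(1 / 2) * qf (J x) (Θ x) (P x) + C := by
    filter_upwards [D.ae_mem] with x hx
    by_cases hxζ : x ∈ tsupport ζ
    swap
    · obtain ⟨h1, h2⟩ := hzero x hxζ
      simp only [G, h1, h2, hqz]
      simp [wd, pfq]
      positivity
    obtain ⟨hJ2, hpsd, hB⟩ := hx (D.cut.supp hxζ)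
    have hB' : ∀ i j, |Θ x i j| ≤ B₀ := fun i j => (hB i j).trans (le_max_left _ _)
    have hJK : ∀ i j, |J x i j| ≤ K := fun i j => (D.coeff.bJ i j).1 x
    have hins := D.inside x hxζ
    have hab : T - n ≤ T := by simp
    -- the remainder
    have hr : ∀ i, |r x i| ≤ Cr * Cc * (2 + exp (-2 * T)) * F x := fun i => by
      have e : r x i = H x i - (1 / 2) * dc J (upot J μ (T - n) T) x i := by
        simp only [r, dc, Pi.neg_apply, Matrix.mulVec, dotProduct, hF, D.pd_fpot,
          Fin.sum_univ_four]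
        ring
      rw [e]
      refine (hCr T (T - n) T le_rfl x hins i).trans ?_
      rw [mul_assoc, mul_assoc]
      refine mul_le_mul_of_nonneg_left ((hCc _ _ hab x).trans ?_) hCr0
      refine mul_le_mul_of_nonneg_left ?_ hCc0
      have hu := S.upot_nonneg (T - n) T x
      have he : 0 ≤ exp (-2 * T) := (exp_pos _).le
      simp only [hF, fpot]
      nlinarith [mul_nonneg he hu]
    obtain ⟨hz0, hz1⟩ := D.cut01 x
    have hFp : 0 < F x := by linarith [hF2 x]
    set a := ζ x / F x with ha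
    have ha0 : 0 ≤ a := div_nonneg hz0 hFp.le
    set R : E := a • r x with hR
    have hRb : ∀ i, |R i| ≤ R₀ := fun i => by
      rw [hR, Pi.smul_apply, smul_eq_mul, abs_mul, abs_of_nonneg ha0]
      calc a * |r x i| ≤ a * (R₀ * F x) := mul_le_mul_of_nonneg_left (hr i) ha0
        _ = ζ x * R₀ := by rw [ha]; field_simp
        _ ≤ R₀ := mul_le_of_le_one_left (by positivity) hz1
    set Zv := grad ζ x
    have hgrad : grad g x = (-a) • P x + (2 * a) • Zv := by
      funext i
      have h1 : DifferentiableAt ℝ ζ x := D.cut.smooth.differentiable (by simp) x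
      have h2 : DifferentiableAt ℝ F x := hFs.differentiable (by simp) x
      have h3 : DifferentiableAt ℝ (fun y => (F y)⁻¹) x := h2.inv (hFne x)
      show pd i (fun y => ζ y * ζ y / F y) x = _
      simp only [div_eq_mul_inv]
      rw [pd_mul (h1.fun_mul h1) h3, pd_mul h1 h1,
        pd_comp (h := fun s => s⁻¹) h2 (differentiableAt_inv (hFne x)), deriv_inv]
      simp [P, Zv, grad, ha]
      field_simp
      ring
    have hHx : H x = dc J F x + r x := by funext i; simp [r]
    have hdH : dOne H x = theta J μ Θ T x - theta J μ Θ (T - n) x := by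
      ext i j
      exact S.dOne_hform hab x (fun t ht v _ z hz => hins t ht.2 v z hz) i j
    have hG : G x = wd (J x) (Θ x) (wdg (grad g x) (H x))
        + g x * (wd (J x) (Θ x) (theta J μ Θ T x) - wd (J x) (Θ x) (theta J μ Θ (T - n) x)) := by
      show wd (J x) (Θ x) (dOne (fun y => g y • H y) x) = _
      rw [dOne_smul (hgs.differentiable (by simp) x)
        (fun i => (hHs i).differentiable (by simp) x), wd_add, wd_smul, hdH, wd_sub]
    have hdcF : dc J F x = -((J x)ᵀ *ᵥ grad F x) := rfl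
    have hX : wd (J x) (Θ x) (wdg (grad g x) (H x))
        = -qf (J x) (Θ x) (P x) - wd (J x) (Θ x) (wdg (P x) R)
          + 2 * wd (J x) (Θ x) (wdg Zv (-((J x)ᵀ *ᵥ P x))) + 2 * wd (J x) (Θ x) (wdg Zv R) := by
      rw [hgrad, hHx, hdcF]
      simp only [qf, P, R, wd, pfq, wdg_apply, Pi.add_apply, Pi.smul_apply, Pi.neg_apply,
        Matrix.mulVec_smul, smul_eq_mul, ha]
      ring
    have hqR : qf (J x) (Θ x) ((J x)ᵀ *ᵥ R) ≤ CR := qf_transpose_le hJ2 hB' hJK hRb
    have hqZ : qf (J x) (Θ x) Zv ≤ CZ := (le_abs_self _).trans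
      (qf_le hB' hJK fun i => (hZ x i).trans (le_max_left _ _))
    have hk := key_ineq hL hJ2 hpsd (P x) R Zv hqR hqZ
    have hθT : |wd (J x) (Θ x) (theta J μ Θ T x)| ≤ C2 :=
      (abs_wd_le hB' fun i j => hCt x i j).trans_eq (by simp only [C2])
    have hθa : -(Cl * |A|) * (∑ l, qf (J x) (Θ x) (e l))
        ≤ wd (J x) (Θ x) (theta J μ Θ (T - n) x) := by
      refine wd_ge hL hJ2 hpsd (D.theta_skew _ _) (by positivity) fun v => ?_
      refine le_trans ?_ (hCl T (T - n) hab x hins v)
      have h1 : exp (-2 * (T - n)) * μ.real (closedBall x ((1 + 4 * K) * exp (T - n))) ≤ |A| := by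
        refine (mul_le_mul_of_nonneg_left ((D.ball x hxζ _ hab).trans
          (mul_le_mul_of_nonneg_right (le_abs_self A) (exp_pos _).le)) (exp_pos _).le).trans_eq ?_
        rw [mul_left_comm, ← exp_add]
        ring_nf
        simp
      have hv : 0 ≤ v ⬝ᵥ v := Finset.sum_nonneg fun i _ => mul_self_nonneg (v i)
      nlinarith [mul_le_mul_of_nonneg_left h1 (mul_nonneg hCl0 hv)]
    have hsum : ∑ l, qf (J x) (Θ x) (e l) ≤ 4 * C1 := by
      refine (Finset.sum_le_sum fun l _ => ?_).trans_eq (show ∑ _l : Fin 4, C1 = _ by simp)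
      have he1 : ∀ i, |e l i| ≤ (1 : ℝ) := fun i => by
        simp only [e, Pi.single_apply]; split <;> simp
      refine (le_abs_self _).trans ((abs_wd_wdg_le hB' he1 (Y := 4 * (K * 1)) fun i => ?_).trans_eq
        (by simp only [C1]; ring))
      rw [Pi.neg_apply, abs_neg]
      exact abs_mulVec_le (fun i j => hJK j i) he1 i
    have hg0 : 0 ≤ g x := by positivity
    have hg1 : g x ≤ 1 := by
      show ζ x * ζ x / F x ≤ 1
      rw [div_le_one hFp]; nlinarith [hF2 x]
    have hneg : -wd (J x) (Θ x) (theta J μ Θ (T - n) x) ≤ Cl * |A| * (4 * C1) := by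
      nlinarith [mul_le_mul_of_nonneg_left hsum (mul_nonneg hCl0 (abs_nonneg A))]
    have hlast : g x * (wd (J x) (Θ x) (theta J μ Θ T x)
        - wd (J x) (Θ x) (theta J μ Θ (T - n) x)) ≤ C2 + Cl * |A| * (4 * C1) := by
      refine (mul_le_mul_of_nonneg_left (show _ ≤ C2 + Cl * |A| * (4 * C1) by
        linarith [abs_le.1 hθT]) hg0).trans (mul_le_of_le_one_left (by positivity) hg1)
    rw [hG, hX]
    clear_value CZ CR C2 C1
    show _ ≤ -(1 / 2) * qf (J x) (Θ x) (P x) + (5 * CZ + 2 * CR + C2 + Cl * |A| * (4 * C1))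
    linarith
  -- integrability
  have hPc : Continuous P := (D.cut.smooth.continuous.div hFs.continuous hFne).smul
    (continuous_pi fun i => (contDiff_pd hFs i).continuous)
  have hqi : Integrable (fun x => qf (J x) (Θ x) (P x)) μ :=
    D.integrable_qf hPc (HasCompactSupport.intro D.cut.compact fun x hx => (hzero x hx).2)
  have hGi : Integrable G μ :=
    D.integrable_wd (u := fun x => dOne Sf x)
      (continuous_pi fun i => continuous_pi fun j => hpdc i j)
      (HasCompactSupport.intro D.cut.compact fun x hx => (hzero x hx).1)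
  refine ⟨hqi, ?_⟩
  have h0 : ∫ x, G x ∂μ = 0 := D.exact Sf htest
  have h1 := integral_mono_ae hGi ((hqi.const_mul _).add (integrable_const C)) hkey
  simp only [Pi.add_apply] at h1
  rw [integral_add (hqi.const_mul _) (integrable_const C), integral_const_mul, integral_const,
    smul_eq_mul, h0] at h1
  linarith

/-- The cutoff functions built from the potential. -/
theorem cutoff_bound (hL : LinearFacts) {φ : E → ℝ} (hφ : IsTest W φ)
    (hone : ∀ x, φ x ≠ 0 → ζ x = 1) (i j k : Fin 4) :
    ∃ C, ∀ m n : ℕ,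
      |∫ x, prof (log (fpot J μ T n x) / (m + 1) - 1)
          * (Θ x j k * pd i φ x + Θ x k i * pd j φ x + Θ x i j * pd k φ x) ∂μ| ≤ C / (m + 1) := by
  have S := D.setup
  have := S.finite
  obtain ⟨CE, hCE⟩ := D.energy hL
  obtain ⟨Pd, hPd⟩ := deriv_prof_bound
  obtain ⟨Cφ, hCφ⟩ := hφ.compact.exists_bound_of_continuous hφ.smooth.continuous
  set B₀ := max B 0
  have hK : 0 ≤ K := (D.coeff.bJ 0 0).nonneg
  have hB0 : 0 ≤ B₀ := le_max_right _ _
  have hPd0 : 0 ≤ Pd := (abs_nonneg _).trans (hPd 0 (by norm_num))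
  have hCφ0 : 0 ≤ Cφ := (norm_nonneg _).trans (hCφ 0)
  refine ⟨Cφ * Pd * (CE + 3072 * B₀ * K * μ.real univ), fun m n => ?_⟩
  obtain ⟨hqi, hqb⟩ := hCE n
  set F := fpot J μ T n
  have hFs : ContDiff ℝ ∞ F := D.contDiff_fpot n
  have hF2 : ∀ x, 2 ≤ F x := D.two_le_fpot n
  have hFne : ∀ x, F x ≠ 0 := fun x => by linarith [hF2 x]
  set χ : E → ℝ := fun x => prof (log (F x) / (m + 1) - 1) with hχ
  have hχs : ContDiff ℝ ∞ χ :=
    contDiff_prof.comp (((hFs.log hFne).div_const _).sub contDiff_const)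
  have htest : IsTest W fun x => χ x * φ x := by
    have hs : tsupport (fun x => χ x * φ x) ⊆ tsupport φ := tsupport_mul_subset_right
    exact ⟨hχs.mul hφ.smooth, hφ.compact.of_isClosed_subset (isClosed_tsupport _) hs,
      hs.trans hφ.supp⟩
  have h0 := S.closed _ htest i j k
  set cyc : E → E → ℝ := fun x ξ => Θ x j k * ξ i + Θ x k i * ξ j + Θ x i j * ξ k with hcyc
  have hsplit : ∀ x, Θ x j k * pd i (fun y => χ y * φ y) x + Θ x k i * pd j (fun y => χ y * φ y) x
      + Θ x i j * pd k (fun y => χ y * φ y) x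
      = χ x * cyc x (grad φ x) + φ x * cyc x (grad χ x) := fun x => by
    simp only [hcyc, grad, pd_mul (hχs.differentiable (by simp) x)
      (hφ.smooth.differentiable (by simp) x)]
    ring
  have hi1 : Integrable (fun x => χ x * cyc x (grad φ x)) μ := by
    have h : ∀ p q l, Integrable (fun x => Θ x p q * (χ x * pd l φ x)) μ := fun p q l =>
      integrable_of_continuous (g := fun x => Θ x p q) S.compact S.carried
        (S.meas p q).aestronglyMeasurable (S.bound.mono fun x h => h p q)
        (hχs.continuous.mul (contDiff_pd hφ.smooth l).continuous)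
    refine (((h j k i).add (h k i j)).add (h i j k)).congr (Filter.Eventually.of_forall fun x => ?_)
    simp only [hcyc, grad, Pi.add_apply]; ring
  have hi2 : Integrable (fun x => φ x * cyc x (grad χ x)) μ := by
    have h : ∀ p q l, Integrable (fun x => Θ x p q * (φ x * pd l χ x)) μ := fun p q l =>
      integrable_of_continuous (g := fun x => Θ x p q) S.compact S.carried
        (S.meas p q).aestronglyMeasurable (S.bound.mono fun x h => h p q)
        (hφ.smooth.continuous.mul (contDiff_pd hχs l).continuous)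
    refine (((h j k i).add (h k i j)).add (h i j k)).congr (Filter.Eventually.of_forall fun x => ?_)
    simp only [hcyc, grad, Pi.add_apply]; ring
  simp only [hsplit] at h0
  rw [integral_add hi1 hi2] at h0
  rw [show (∫ x, prof (log (F x) / (m + 1) - 1)
      * (Θ x j k * pd i φ x + Θ x k i * pd j φ x + Θ x i j * pd k φ x) ∂μ)
      = -∫ x, φ x * cyc x (grad χ x) ∂μ by
    simp only [hχ, hcyc, grad] at h0 ⊢; linarith, abs_neg, ← Real.norm_eq_abs]
  set q : E → ℝ := fun x => qf (J x) (Θ x) ((ζ x / F x) • grad F x)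
  refine (norm_integral_le_of_norm_le
    ((hqi.add (integrable_const (3072 * B₀ * K))).const_mul (Cφ * Pd / (m + 1))) ?_).trans ?_
  · filter_upwards [D.ae_mem, S.skew] with x hx hsk
    rw [Real.norm_eq_abs]
    simp only [Pi.add_apply]
    by_cases hxW : x ∈ W
    swap
    · have hxn : x ∉ tsupport φ := fun h => hxW (hφ.supp h)
      have hxζ : x ∉ tsupport ζ := fun h => hxW (D.cut.supp h)
      have h : 0 ≤ Cφ * Pd / (m + 1) * (3072 * B₀ * K) :=
        mul_nonneg (div_nonneg (mul_nonneg hCφ0 hPd0) (by positivity))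
          (mul_nonneg (mul_nonneg (by norm_num) hB0) hK)
      simpa [q, image_eq_zero_of_notMem_tsupport hxn, image_eq_zero_of_notMem_tsupport hxζ, qf, wd,
        pfq, wdg_apply] using h
    obtain ⟨hJ2, hpsd, hB⟩ := hx hxW
    have hq0 := qf_nonneg hL hJ2 hpsd ((ζ x / F x) • grad F x)
    by_cases hφx : φ x = 0
    · simp only [hφx, zero_mul, abs_zero]; positivity
    have hz : ζ x = 1 := hone x hφx
    have hFp : 0 < F x := by linarith [hF2 x]
    have harg : -1 ≤ log (F x) / (m + 1) - 1 := by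
      have : 0 ≤ log (F x) / (m + 1) := div_nonneg (log_nonneg (by linarith [hF2 x])) (by positivity)
      linarith
    set d := deriv prof (log (F x) / (m + 1) - 1)
    have hgχ : grad χ x = (d / (m + 1)) • ((1 / F x) • grad F x) := by
      funext l
      have h2 : DifferentiableAt ℝ F x := hFs.differentiable (by simp) x
      have hh : HasDerivAt (fun s => log s / (m + 1) - 1) ((F x)⁻¹ / (m + 1)) (F x) :=
        ((Real.hasDerivAt_log (hFne x)).div_const _).sub_const 1
      have hp : DifferentiableAt ℝ prof (log (F x) / (m + 1) - 1) :=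
        contDiff_prof.differentiable (by simp) _
      show pd l (fun y => (fun s => prof (log s / (m + 1) - 1)) (F y)) x = _
      rw [pd_comp h2 (hp.fun_comp' (F x) hh.differentiableAt),
        show deriv (fun s => prof (log s / (m + 1) - 1)) (F x) = d * ((F x)⁻¹ / (m + 1)) from
          ((hp.hasDerivAt : HasDerivAt prof d _).comp (h := fun s => log s / (m + 1) - 1) (F x)
            hh).deriv]
      simp only [grad, Pi.smul_apply, smul_eq_mul, d]
      ring
    set ξ : E := (1 / F x) • grad F x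
    have hξ : ξ = (ζ x / F x) • grad F x := by rw [hz]
    have hm : ∀ l, |pfq (Θ x) (wdg ξ (e l))|
        ≤ qf (J x) (Θ x) ξ + 3072 * B₀ * K := fun l => by
      have h1 := abs_wd_wdg hL hJ2 hpsd ξ (e l) one_pos
      have h2 : qf (J x) (Θ x) ((J x)ᵀ *ᵥ e l) ≤ 12288 * B₀ * K * 1 ^ 2 :=
        qf_transpose_le hJ2 (fun i j => (hB i j).trans (le_max_left _ _))
          (fun i j => (D.coeff.bJ i j).1 x) fun i => by simp only [e, Pi.single_apply]; split <;> simp
      have hs : sgnJ (J x) ≠ 0 := fun h => by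
        have := (hL.2.2.1 (J x) hJ2).2
        rw [h] at this; simp at this
      have habs : |wd (J x) (Θ x) (wdg ξ (e l))| = |pfq (Θ x) (wdg ξ (e l))| := by
        rw [wd, abs_mul]
        have : |sgnJ (J x)| = 1 := by
          unfold sgnJ at hs ⊢
          rcases Real.sign_apply_eq (pfq (wmat (J x)) (wmat (J x))) with h | h | h
          · rw [h]; simp
          · exact absurd h hs
          · rw [h]; simp
        rw [this, one_mul]
      rw [habs] at h1
      norm_num at h1 h2
      linarith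
    have hc : |cyc x ξ| ≤ qf (J x) (Θ x) ξ + 3072 * B₀ * K := abs_cyclic_le hsk ξ hm i j k
    have e1 : cyc x (grad χ x) = d / (m + 1) * cyc x ξ := by
      simp only [hcyc, hgχ, Pi.smul_apply, smul_eq_mul]; ring
    show _ ≤ Cφ * Pd / (m + 1) * (qf (J x) (Θ x) ((ζ x / F x) • grad F x) + 3072 * B₀ * K)
    rw [e1, ← hξ, abs_mul, abs_mul, abs_div,
      abs_of_pos (show (0 : ℝ) < m + 1 by positivity)]
    calc |φ x| * (|d| / (m + 1) * |cyc x ξ|)
        ≤ Cφ * (Pd / (m + 1) * (qf (J x) (Θ x) ξ + 3072 * B₀ * K)) := by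
          gcongr
          · exact hCφ x
          · exact hPd _ harg
      _ = _ := by ring
  rw [integral_const_mul]
  simp only [Pi.add_apply]
  rw [integral_add hqi (integrable_const _), integral_const, smul_eq_mul]
  calc Cφ * Pd / (m + 1) * (_ + _) ≤ Cφ * Pd / (m + 1) * (CE + μ.real univ * (3072 * B₀ * K)) := by
        gcongr
    _ = _ := by ring

end Loc

end Vale.Agent.P204.Tame.ElMir
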