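import Vale.Agent.P204.Tame.ElMir.Homotopy
import Vale.Agent.P204.Tame.ElMir.Alg

/-!
Uniform bounds for the kernels and the pointwise expansion of the homotopy one-form.
-/

namespace Vale.Agent.P204.Tame.ElMir

open scoped ContDiff Matrix NNReal
open MeasureTheory Metric Set Real

theorem abs_sum4_le {f : Fin 4 → ℝ} {C : ℝ} (h : ∀ i, |f i| ≤ C) : |∑ i, f i| ≤ 4 * C := by
  refine (Finset.abs_sum_le_sum_abs _ _).trans ?_
  simp only [Fin.sum_univ_four]
  linarith [h 0, h 1, h 2, h 3]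

theorem abs_pd_le {f : E → ℝ} {K : ℝ} (hK : 0 ≤ K)
    (hf : ∀ x y, |f x - f y| ≤ K * ‖x - y‖) (a : Fin 4) (x : E) : |pd a f x| ≤ K := by
  have hl : LipschitzWith K.toNNReal f := LipschitzWith.of_dist_le_mul fun x y => by
    rw [Real.dist_eq, dist_eq_norm, Real.coe_toNNReal K hK]; exact hf x y
  have h := (norm_fderiv_le_of_lipschitz ℝ hl : ‖fderiv ℝ f x‖ ≤ _)
  rw [Real.coe_toNNReal K hK] at h
  calc |pd a f x| = ‖fderiv ℝ f x (e a)‖ := rfl
    _ ≤ ‖fderiv ℝ f x‖ * ‖e a‖ := ContinuousLinearMap.le_opNorm _ _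
    _ ≤ K * 1 := mul_le_mul h (by simp [e, Pi.norm_single]) (norm_nonneg _) hK
    _ = K := mul_one K

/-- A bound for a function and its variation. -/
def BdLip (K : ℝ) (f : E → ℝ) : Prop := (∀ x, |f x| ≤ K) ∧ ∀ x y, |f x - f y| ≤ K * ‖x - y‖

theorem BdLip.mono {K K' : ℝ} {f : E → ℝ} (h : BdLip K f) (hK : K ≤ K') : BdLip K' f :=
  ⟨fun x => (h.1 x).trans hK,
    fun x y => (h.2 x y).trans (mul_le_mul_of_nonneg_right hK (norm_nonneg _))⟩

theorem BdLip.nonneg {K : ℝ} {f : E → ℝ} (h : BdLip K f) : 0 ≤ K := (abs_nonneg _).trans (h.1 0)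

theorem BdLip.pd_le {K : ℝ} {f : E → ℝ} (h : BdLip K f) (a : Fin 4) (x : E) : |pd a f x| ≤ K :=
  abs_pd_le h.nonneg h.2 a x

theorem bdLip_const (c : ℝ) : BdLip |c| fun _ => c :=
  ⟨fun _ => le_rfl, fun x y => by simp [mul_nonneg (abs_nonneg c) (norm_nonneg (x - y))]⟩

theorem BdLip.add {K K' : ℝ} {f g : E → ℝ} (hf : BdLip K f) (hg : BdLip K' g) :
    BdLip (K + K') fun x => f x + g x := by
  refine ⟨fun x => (abs_add_le _ _).trans (add_le_add (hf.1 x) (hg.1 x)), fun x y => ?_⟩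
  rw [show f x + g x - (f y + g y) = (f x - f y) + (g x - g y) by ring, add_mul]
  exact (abs_add_le _ _).trans (add_le_add (hf.2 x y) (hg.2 x y))

theorem BdLip.mul {K K' : ℝ} {f g : E → ℝ} (hf : BdLip K f) (hg : BdLip K' g) :
    BdLip (2 * K * K') fun x => f x * g x := by
  have hK := hf.nonneg; have hK' := hg.nonneg
  refine ⟨fun x => ?_, fun x y => ?_⟩
  · rw [abs_mul]
    refine (mul_le_mul (hf.1 x) (hg.1 x) (abs_nonneg _) hK).trans ?_
    nlinarith [mul_nonneg hK hK']
  · rw [show f x * g x - f y * g y = (f x - f y) * g x + f y * (g x - g y) by ring]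
    refine (abs_add_le _ _).trans ?_
    rw [abs_mul, abs_mul]
    have h1 := mul_le_mul (hf.2 x y) (hg.1 x) (abs_nonneg _) (by positivity)
    have h2 := mul_le_mul (hf.1 y) (hg.2 x y) (abs_nonneg _) hK
    calc _ ≤ _ := add_le_add h1 h2
      _ = _ := by ring

theorem exists_bdLip {f : E → ℝ} (hf : ContDiff ℝ ∞ f) (hs : HasCompactSupport f) :
    ∃ K, BdLip K f := by
  obtain ⟨C, hC⟩ := hs.exists_bound_of_continuous hf.continuous
  obtain ⟨L, hL⟩ : ∃ L : ℝ≥0, LipschitzWith L f := by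
    exact ⟨_, ContDiff.lipschitzWith_of_hasCompactSupport hs hf (by simp) |>.choose_spec⟩
  exact ⟨max C L, fun x => (hC x).trans (le_max_left _ _), fun x y =>
    (by simpa [Real.dist_eq, dist_eq_norm] using hL.dist_le_mul x y : |f x - f y| ≤ L * ‖x - y‖).trans
      (mul_le_mul_of_nonneg_right (le_max_right _ _) (norm_nonneg _))⟩

/-- Uniform bounds for the coefficients built from `J`. -/
structure Coeff (J : E → M) (K : ℝ) : Prop where
  smooth : ∀ i j, ContDiff ℝ ∞ fun x => J x i j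
  bJ : ∀ i j, BdLip K fun x => J x i j
  bH : ∀ i j, BdLip K fun x => hmat (J x) i j
  bK : ∀ i j b c, BdLip K fun x => kmat (J x) i j * J x b c

theorem exists_coeff {J : E → M} (hJ : ∀ i j, ContDiff ℝ ∞ fun x => J x i j)
    (hs : ∀ i j, HasCompactSupport fun x => J x i j) : ∃ K, Coeff J K := by
  have hex := fun i j => exists_bdLip (hJ i j) (hs i j)
  choose k hk using hex
  set A : ℝ := ∑ i, ∑ j, k i j
  have hA : ∀ i j, BdLip A fun x => J x i j := fun i j => (hk i j).mono
    ((Finset.single_le_sum (fun j _ => (hk i j).nonneg) (Finset.mem_univ j)).trans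
      (Finset.single_le_sum (f := fun i => ∑ j, k i j)
        (fun i _ => Finset.sum_nonneg fun j _ => (hk i j).nonneg) (Finset.mem_univ i)))
  have hsum : ∀ {K : ℝ} (f : Fin 4 → E → ℝ), (∀ l, BdLip K (f l)) →
      BdLip (K + K + K + K) fun x => ∑ l, f l x := fun f hf => by
    simp only [Fin.sum_univ_four]
    exact (((hf 0).add (hf 1)).add (hf 2)).add (hf 3)
  set A₂ : ℝ := 2 * A * A
  have hH : ∀ i j, BdLip (1 + (A₂ + A₂ + A₂ + A₂)) fun x => hmat (J x) i j := fun i j => by
    have e : (fun x => hmat (J x) i j)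
        = fun x => (fun _ => if i = j then (1 : ℝ) else 0) x + ∑ l, J x i l * J x j l := by
      funext x; simp [hmat, Matrix.add_apply, Matrix.mul_apply, Matrix.one_apply]
    rw [e]
    exact ((bdLip_const _).mono (by split <;> simp)).add (hsum _ fun l => (hA i l).mul (hA j l))
  set B : ℝ := 1 + (A₂ + A₂ + A₂ + A₂)
  have hKm : ∀ i j, BdLip (2 * A * B + 2 * A * B + 2 * A * B + 2 * A * B)
      fun x => kmat (J x) i j := fun i j => by
    have e : (fun x => kmat (J x) i j) = fun x => ∑ l, J x i l * hmat (J x) l j := by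
      funext x; simp [kmat, Matrix.mul_apply]
    rw [e]
    exact hsum _ fun l => (hA i l).mul (hH l j)
  set D : ℝ := 2 * (2 * A * B + 2 * A * B + 2 * A * B + 2 * A * B) * A
  refine ⟨max A (max B D), hJ, fun i j => (hA i j).mono (le_max_left _ _),
    fun i j => (hH i j).mono ((le_max_left _ _).trans (le_max_right _ _)),
    fun i j b c => ((hKm i j).mul (hA b c)).mono ((le_max_right _ _).trans (le_max_right _ _))⟩

theorem contDiff_hmat {J : E → M} (hJ : ∀ i j, ContDiff ℝ ∞ fun x => J x i j) (i j : Fin 4) :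
    ContDiff ℝ ∞ fun x => hmat (J x) i j := by
  simp only [hmat, Matrix.add_apply, Matrix.mul_apply, Matrix.transpose_apply]
  fun_prop

theorem contDiff_coef {J : E → M} (hJ : ∀ i j, ContDiff ℝ ∞ fun x => J x i j) (i j b c : Fin 4) :
    ContDiff ℝ ∞ fun x => kmat (J x) i j * J x b c := by
  have := fun l => contDiff_hmat hJ l j
  simp only [kmat, Matrix.mul_apply]
  fun_prop

variable {J : E → M} {K : ℝ} {x y v : E} {t : ℝ}

theorem abs_disp_le (h : qd J x y t v ≤ 1) (m : Fin 4) : |disp J x y t v m| ≤ 1 := by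
  have h1 : disp J x y t v m * disp J x y t v m ≤ 1 := by
    refine le_trans ?_ ((le_add_of_nonneg_right (sq_nonneg v)).trans h)
    exact Finset.single_le_sum (fun i _ => mul_self_nonneg (disp J x y t v i)) (Finset.mem_univ m)
  exact abs_le.2 ⟨by nlinarith, by nlinarith⟩

theorem abs_par_le (h : qd J x y t v ≤ 1) (m : Fin 4) : |v m| ≤ 1 := by
  have h1 : v m * v m ≤ 1 := by
    refine le_trans ?_ ((le_add_of_nonneg_left (sq_nonneg _)).trans h)
    exact Finset.single_le_sum (fun i _ => mul_self_nonneg (v i)) (Finset.mem_univ m)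
  exact abs_le.2 ⟨by nlinarith, by nlinarith⟩

theorem Coeff.norm_sub_le (hc : Coeff J K) (h : qd J x y t v ≤ 1) :
    ‖y - x‖ ≤ (1 + 4 * K) * exp t := by
  have hK : 0 ≤ K := (hc.bJ 0 0).nonneg
  refine (pi_norm_le_iff_of_nonneg (by positivity)).2 fun m => ?_
  have e : (y - x) m = exp t * (disp J x y t v m + ∑ l, J x m l * v l) := by
    unfold disp
    rw [exp_neg, Pi.sub_apply]
    field_simp
    ring
  rw [Real.norm_eq_abs, e, abs_mul, abs_of_pos (exp_pos t), mul_comm (1 + 4 * K)]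
  refine mul_le_mul_of_nonneg_left ((abs_add_le _ _).trans ?_) (exp_pos t).le
  refine add_le_add (abs_disp_le h m) (abs_sum4_le fun l => ?_)
  rw [abs_mul]
  simpa using mul_le_mul ((hc.bJ m l).1 x) (abs_par_le h l) (abs_nonneg _) hK

theorem Coeff.abs_dj_le (hc : Coeff J K) (h : qd J x y t v ≤ 1) (m a : Fin 4) :
    |dj J x v m a| ≤ 4 * K := by
  refine abs_sum4_le fun l => ?_
  rw [abs_mul]
  simpa using mul_le_mul ((hc.bJ m l).pd_le a x) (abs_par_le h l) (abs_nonneg _) (hc.bJ m l).nonneg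

theorem exists_dens_bound : ∃ P : ℝ, ∀ r, 0 ≤ r → dens r ≤ P := by
  obtain ⟨P, hP⟩ := (isCompact_Icc (a := (0 : ℝ)) (b := 1)).exists_bound_of_continuousOn
    contDiff_dens.continuous.continuousOn
  refine ⟨max P 0, fun r hr => ?_⟩
  rcases le_or_gt r 1 with h | h
  · exact ((le_abs_self _).trans (hP r ⟨hr, h⟩)).trans (le_max_left _ _)
  · rw [dens_zero h]; exact le_max_right _ _

theorem qd_nonneg : 0 ≤ qd J x y t v := add_nonneg (sq_nonneg _) (sq_nonneg _)

theorem kernels_zero (hJ : ∀ i j, ContDiff ℝ ∞ fun x => J x i j) (h : 1 < qd J x y t v) :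
    ker J x y t v = 0 ∧ pot J x y t v = 0 ∧ (∀ l, pd l (fun z => pot J x z t v) y = 0) ∧
      (∀ l, pd l (fun z => pot J z y t v) x = 0) ∧
      ∀ l, pd l (fun u => pot J x y t u) v = 0 := by
  have h1 := dens_zero h
  refine ⟨by simp [ker, h1], by simp [pot, prof_zero h.le], fun l => ?_, fun l => ?_, fun l => ?_⟩
  · simp [pd_pot_snd hJ, h1]
  · simp [pd_pot_fst hJ, pd_pot_snd hJ, h1]
  · simp [pd_pot_par hJ, h1]

/-- The displacement times the kernel is a derivative of the potential kernel. -/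
theorem ker_mul_sub (hJ : ∀ i j, ContDiff ℝ ∞ fun x => J x i j) (x y : E) (t : ℝ) (v : E)
    (i : Fin 4) :
    ker J x y t v * (y i - x i)
      = -(∑ l, hmat (J x) i l * pd l (fun z => pot J x z t v) y)
        - exp (-t) * ∑ l, J x i l * pd l (fun u => pot J x y t u) v := by
  have e1 : exp (-2 * t) * exp (-t) = exp (-3 * t) := by rw [← exp_add]; ring_nf
  have e3 : y i - x i = exp t * (disp J x y t v i + ∑ l, J x i l * v l) := by
    unfold disp; rw [exp_neg]; field_simp; ring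
  rw [e3]
  simp only [pd_pot_snd hJ, pd_pot_par hJ, ker, hmat, Matrix.add_apply, Matrix.one_apply,
    Matrix.mul_apply, Matrix.transpose_apply, Fin.sum_univ_four]
  have e4 : exp (-4 * t) * exp t = exp (-2 * t) * exp (-t) := by
    rw [← exp_add, ← exp_add]; ring_nf
  rw [← e1]
  generalize exp (-4 * t) = a at e4 ⊢
  generalize exp (-2 * t) = b at e4 ⊢
  generalize exp (-t) = c at e4 ⊢
  generalize exp t = d at e4 ⊢
  fin_cases i <;> simp <;>
    linear_combination (dens (qd J x y t v) * (disp J x y t v _ + J x _ 0 * v 0 + J x _ 1 * v 1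
      + J x _ 2 * v 2 + J x _ 3 * v 3)) * e4

end Vale.Agent.P204.Tame.ElMir
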