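import Mathlib

/-!
Smoothness of integrals depending on a parameter, for a finite measure carried by a compact set
and a bounded weight.
-/

namespace Vale.Agent.P204.Tame.ElMir

open scoped ContDiff
open MeasureTheory Function

universe u

section basic

variable {Z : Type*} [NormedAddCommGroup Z] [NormedSpace ℝ Z] [FiniteDimensional ℝ Z]
  [MeasurableSpace Z] [BorelSpace Z] {ν : Measure Z} [IsFiniteMeasure ν] {L : Set Z}
  {g : Z → ℝ} {B : ℝ}

theorem integrable_of_continuous {G : Type*} [NormedAddCommGroup G] [NormedSpace ℝ G]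
    (hL : IsCompact L) (hν : ν Lᶜ = 0) (hg : AEStronglyMeasurable g ν)
    (hgB : ∀ᵐ z ∂ν, |g z| ≤ B) {f : Z → G} (hf : Continuous f) :
    Integrable (fun z => g z • f z) ν := by
  obtain ⟨C, hC⟩ := hL.exists_bound_of_continuousOn hf.continuousOn
  refine Integrable.of_bound (hg.smul hf.aestronglyMeasurable) (B * C) ?_
  filter_upwards [mem_ae_iff.2 hν, hgB] with z hz hb
  rw [norm_smul, Real.norm_eq_abs]
  exact mul_le_mul hb (hC z hz) (norm_nonneg _) ((abs_nonneg _).trans hb)

end basic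

variable {H : Type u} [NormedAddCommGroup H] [NormedSpace ℝ H] [FiniteDimensional ℝ H]
  {Z : Type*} [NormedAddCommGroup Z] [NormedSpace ℝ Z] [FiniteDimensional ℝ Z]
  [MeasurableSpace Z] [BorelSpace Z] {ν : Measure Z} [IsFiniteMeasure ν] {L : Set Z}
  {g : Z → ℝ} {B : ℝ}

/-- The derivative with respect to the first variable. -/
noncomputable def dfst {G : Type*} [NormedAddCommGroup G] [NormedSpace ℝ G]
    (F : H × Z → G) (p : H × Z) : H →L[ℝ] G :=
  (fderiv ℝ F p).comp (ContinuousLinearMap.inl ℝ H Z)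

omit [FiniteDimensional ℝ H] [FiniteDimensional ℝ Z] [MeasurableSpace Z] [BorelSpace Z] in
theorem hasFDerivAt_fst {G : Type*} [NormedAddCommGroup G] [NormedSpace ℝ G]
    {F : H × Z → G} (hF : Differentiable ℝ F) (x : H) (z : Z) :
    HasFDerivAt (fun x => F (x, z)) (dfst F (x, z)) x :=
  (hF (x, z)).hasFDerivAt.comp x (hasFDerivAt_prodMk_left x z)

omit [FiniteDimensional ℝ H] [FiniteDimensional ℝ Z] [MeasurableSpace Z] [BorelSpace Z] in
theorem contDiff_dfst {G : Type*} [NormedAddCommGroup G] [NormedSpace ℝ G]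
    {F : H × Z → G} (hF : ContDiff ℝ ∞ F) : ContDiff ℝ ∞ (dfst F) :=
  (hF.fderiv_right (m := ∞) le_rfl).clm_comp contDiff_const

theorem hasFDerivAt_param {G : Type*} [NormedAddCommGroup G] [NormedSpace ℝ G] [CompleteSpace G]
    (hL : IsCompact L) (hν : ν Lᶜ = 0) (hg : AEStronglyMeasurable g ν)
    (hgB : ∀ᵐ z ∂ν, |g z| ≤ B) {F : H × Z → G} (hF : ContDiff ℝ ∞ F) (x₀ : H) :
    HasFDerivAt (fun x => ∫ z, g z • F (x, z) ∂ν) (∫ z, g z • dfst F (x₀, z) ∂ν) x₀ := by
  have : ProperSpace H := FiniteDimensional.proper_real H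
  have hd : Continuous (dfst F) := (contDiff_dfst hF).continuous
  obtain ⟨C, hC⟩ := ((isCompact_closedBall x₀ 1).prod hL).exists_bound_of_continuousOn
    hd.continuousOn
  refine hasFDerivAt_integral_of_dominated_of_fderiv_le (bound := fun _ => B * C)
    (F' := fun x z => g z • dfst F (x, z)) (Metric.closedBall_mem_nhds x₀ one_pos)
    (Filter.Eventually.of_forall fun x =>
      hg.smul (hF.continuous.comp (Continuous.prodMk_right x)).aestronglyMeasurable)
    (integrable_of_continuous hL hν hg hgB (hF.continuous.comp (Continuous.prodMk_right x₀)))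
    (hg.smul (hd.comp (Continuous.prodMk_right x₀)).aestronglyMeasurable) ?_
    (integrable_const _) ?_
  · filter_upwards [mem_ae_iff.2 hν, hgB] with z hz hb x hx
    rw [norm_smul, Real.norm_eq_abs]
    exact mul_le_mul hb (hC (x, z) ⟨hx, hz⟩) (norm_nonneg _) ((abs_nonneg _).trans hb)
  · exact Filter.Eventually.of_forall fun z x _ =>
      (hasFDerivAt_fst (hF.differentiable (by simp)) x z).const_smul (g z)

theorem contDiff_param_nat (hL : IsCompact L) (hν : ν Lᶜ = 0) (hg : AEStronglyMeasurable g ν)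
    (hgB : ∀ᵐ z ∂ν, |g z| ≤ B) (n : ℕ) :
    ∀ {G : Type u} [NormedAddCommGroup G] [NormedSpace ℝ G] [CompleteSpace G] (F : H × Z → G),
      ContDiff ℝ ∞ F → ContDiff ℝ n fun x => ∫ z, g z • F (x, z) ∂ν := by
  induction n with
  | zero =>
    intro G _ _ _ F hF
    rw [Nat.cast_zero, contDiff_zero]
    exact continuous_iff_continuousAt.2 fun x =>
      (hasFDerivAt_param hL hν hg hgB hF x).continuousAt
  | succ n ih =>
    intro G _ _ _ F hF
    rw [Nat.cast_succ, contDiff_succ_iff_hasFDerivAt]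
    exact ⟨fun x => ∫ z, g z • dfst F (x, z) ∂ν, ih (dfst F) (contDiff_dfst hF),
      fun x => hasFDerivAt_param hL hν hg hgB hF x⟩

theorem contDiff_param {G : Type u} [NormedAddCommGroup G] [NormedSpace ℝ G] [CompleteSpace G]
    (hL : IsCompact L) (hν : ν Lᶜ = 0) (hg : AEStronglyMeasurable g ν)
    (hgB : ∀ᵐ z ∂ν, |g z| ≤ B) {F : H × Z → G} (hF : ContDiff ℝ ∞ F) :
    ContDiff ℝ ∞ fun x => ∫ z, g z • F (x, z) ∂ν :=
  contDiff_infty.2 fun n => contDiff_param_nat hL hν hg hgB n F hF

theorem fderiv_param {G : Type*} [NormedAddCommGroup G] [NormedSpace ℝ G] [CompleteSpace G]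
    (hL : IsCompact L) (hν : ν Lᶜ = 0) (hg : AEStronglyMeasurable g ν)
    (hgB : ∀ᵐ z ∂ν, |g z| ≤ B) {F : H × Z → G} (hF : ContDiff ℝ ∞ F) (x v : H) :
    fderiv ℝ (fun x => ∫ z, g z • F (x, z) ∂ν) x v
      = ∫ z, g z • fderiv ℝ (fun x => F (x, z)) x v ∂ν := by
  rw [(hasFDerivAt_param hL hν hg hgB hF x).fderiv, ContinuousLinearMap.integral_apply
    (integrable_of_continuous (f := fun z => dfst F (x, z)) hL hν hg hgB
      ((contDiff_dfst hF).continuous.comp (Continuous.prodMk_right x))) v]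
  simp only [(hasFDerivAt_fst (hF.differentiable (by simp)) x _).fderiv,
    ContinuousLinearMap.smul_apply]

end Vale.Agent.P204.Tame.ElMir
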