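import Vale.Agent.P204.Tame.ElMir.Kernel
import Vale.Agent.P204.Tame.ElMir.Param

/-!
The homotopy identity: the difference of two smoothings of a closed current is the exterior
derivative of an explicit one-form.
-/

namespace Vale.Agent.P204.Tame.ElMir

open scoped ContDiff Matrix
open MeasureTheory Metric Set Real

/-- A current given by a finite measure on a compact set and a bounded skew field, closed against
test functions on an open set. -/
structure Setup (J : E → M) (μ : Measure E) (Θ : E → M) (L W : Set E) (B : ℝ) : Prop where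
  smooth : ∀ i j, ContDiff ℝ ∞ fun x => J x i j
  finite : IsFiniteMeasure μ
  compact : IsCompact L
  carried : μ Lᶜ = 0
  meas : ∀ i j, Measurable fun x => Θ x i j
  bound : ∀ᵐ y ∂μ, ∀ i j, |Θ y i j| ≤ B
  skew : ∀ᵐ y ∂μ, ∀ i j, Θ y j i = -Θ y i j
  closed : ∀ φ, IsTest W φ → ∀ i j k,
    ∫ y, Θ y j k * pd i φ y + Θ y k i * pd j φ y + Θ y i j * pd k φ y ∂μ = 0

/-- The variables `(y, v)`. -/
noncomputable def yv (μ : Measure E) : Measure (E × E) :=
  μ.prod (volume.restrict (closedBall 0 1))

/-- The variables `(t, y, v)`. -/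
noncomputable def tyv (μ : Measure E) (a b : ℝ) : Measure (ℝ × E × E) :=
  (volume.restrict (Icc a b)).prod (yv μ)

/-- The smoothed current. -/
noncomputable def theta (J : E → M) (μ : Measure E) (Θ : E → M) (t : ℝ) (x : E) : M := fun a b =>
  ∫ z, ∑ i, ∑ j, Θ z.1 i j * (ker J x z.1 t z.2 * (jm J x t z.2 i a * jm J x t z.2 j b)) ∂yv μ

/-- The kernel of the homotopy one-form. -/
noncomputable def hker (J : E → M) (i j b : Fin 4) (p : E × ℝ × E × E) : ℝ :=
  ker J p.1 p.2.2.1 p.2.1 p.2.2.2 * (p.2.2.1 i - p.1 i) * jm J p.1 p.2.1 p.2.2.2 j b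

/-- The homotopy one-form. -/
noncomputable def hform (J : E → M) (μ : Measure E) (Θ : E → M) (a b : ℝ) (x : E) : E := fun c =>
  ∑ i, ∑ j, ∫ z, Θ z.2.1 i j • hker J i j c (x, z) ∂tyv μ a b

theorem pd_pd_comm {f : E → ℝ} (hf : ContDiff ℝ ∞ f) (a b : Fin 4) (x : E) :
    pd a (pd b f) x = pd b (pd a f) x := by
  have hd : DifferentiableAt ℝ (fderiv ℝ f) x :=
    (hf.fderiv_right (m := ∞) le_rfl).differentiable (by simp) x
  have key : ∀ a b, pd a (pd b f) x = fderiv ℝ (fderiv ℝ f) x (e a) (e b) := fun a b => by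
    show fderiv ℝ (ContinuousLinearMap.apply ℝ ℝ (e b) ∘ fderiv ℝ f) x (e a) = _
    rw [((ContinuousLinearMap.apply ℝ ℝ (e b)).hasFDerivAt.comp x hd.hasFDerivAt).fderiv]
    rfl
  rw [key, key, (hf.contDiffAt.isSymmSndFDerivAt (by rw [minSmoothness_of_isRCLikeNormedField]; decide)).eq]

theorem alg_closed (u : M) (hu : ∀ i j, u j i = -u i j) (A P : Fin 4 → Fin 4 → ℝ) (a b : Fin 4) :
    (∑ i, ∑ j, u i j * (-(∑ l, A l a * P l i) * A j b - -(∑ l, A l b * P l i) * A j a))
      + (∑ l, P l l) * ∑ i, ∑ j, u i j * (A i a * A j b)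
    = -∑ l, ∑ i, ∑ j, A l a * A j b * (u i j * P l i + u j l * P i i + u l i * P j i) := by
  have h0 : ∀ i, u i i = 0 := fun i => by have := hu i i; linarith
  simp only [Fin.sum_univ_four, h0, hu 0 1, hu 0 2, hu 0 3, hu 1 2, hu 1 3, hu 2 3]
  ring

theorem alg_time (u : M) (hu : ∀ i j, u j i = -u i j) (A D : Fin 4 → Fin 4 → ℝ) (a b : Fin 4) :
    (∑ i, ∑ j, u i j * (D i a * A j b - D i b * A j a))
      = ∑ i, ∑ j, u i j * (D i a * A j b + A i a * D j b) := by
  have h0 : ∀ i, u i i = 0 := fun i => by have := hu i i; linarith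
  simp only [Fin.sum_univ_four, h0, hu 0 1, hu 0 2, hu 0 3, hu 1 2, hu 1 3, hu 2 3]
  ring

variable {J : E → M} {μ : Measure E} {Θ : E → M} {L W : Set E} {B : ℝ}

section pointwise
variable (hJ : ∀ i j, ContDiff ℝ ∞ fun x => J x i j) (x y : E) (t : ℝ) (v : E)
include hJ

theorem contDiff_hker (i j c : Fin 4) : ContDiff ℝ ∞ (hker J i j c) := by
  have h1 : ContDiff ℝ ∞ fun p : E × ℝ × E × E => ker J p.1 p.2.2.1 p.2.1 p.2.2.2 :=
    (contDiff_ker hJ).comp (f := fun p : E × ℝ × E × E => (p.1, (p.2.2.1, p.2.1, p.2.2.2)))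
      (by fun_prop)
  have h2 : ContDiff ℝ ∞ fun p : E × ℝ × E × E => jm J p.1 p.2.1 p.2.2.2 j c :=
    (contDiff_jm hJ j c).comp (f := fun p : E × ℝ × E × E => (p.1, (p.2.2.1, p.2.1, p.2.2.2)))
      (by fun_prop)
  exact (h1.mul (by fun_prop)).mul h2

theorem differentiable_ker_snd : Differentiable ℝ fun z => ker J x z t v :=
  ((contDiff_ker hJ).comp (f := fun z => (x, (z, t, v))) (by fun_prop)).differentiable (by simp)

theorem differentiable_ker_fst : Differentiable ℝ fun z => ker J z y t v :=
  ((contDiff_ker hJ).comp (f := fun z => (z, (y, t, v))) (by fun_prop)).differentiable (by simp)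

theorem differentiable_jm (j c : Fin 4) : Differentiable ℝ fun z => jm J z t v j c :=
  ((contDiff_jm hJ j c).comp (f := fun z => (z, (z, t, v))) (by fun_prop)).differentiable (by simp)

theorem pd_jm_comm (j a c : Fin 4) :
    pd a (fun z => jm J z t v j c) x = pd c (fun z => jm J z t v j a) x := by
  have hd : ∀ l b, DifferentiableAt ℝ (fun z => pd b (fun w => J w j l) z * v l) x := fun l b =>
    (((contDiff_pd (hJ j l) b).differentiable (by simp)) x).mul_const _
  have hsum : ∀ b, DifferentiableAt ℝ (fun z => ∑ l, pd b (fun w => J w j l) z * v l) x := fun b =>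
    DifferentiableAt.fun_sum fun l _ => hd l b
  have key : ∀ b d, pd d (fun z => jm J z t v j b) x
      = exp t * ∑ l, pd d (pd b fun w => J w j l) x * v l := fun b d => by
    unfold jm dj
    rw [pd_add (differentiableAt_const _) ((hsum b).const_mul _), pd_const, zero_add,
      pd_const_mul _ (hsum b), pd_sum _ fun l _ => hd l b]
    congr 1
    exact Finset.sum_congr rfl fun l _ => by
      rw [pd_mul (((contDiff_pd (hJ j l) b).differentiable (by simp)) x) (differentiableAt_const _),
        pd_const]
      ring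
  rw [key, key]
  simp only [pd_pd_comm (hJ j _) a c]

/-- The derivative in `y` of `ker * (y - x)_i`. -/
theorem pd_kerX (l i : Fin 4) :
    pd l (fun z => ker J x z t v * (z i - x i)) y
      = pd l (fun z => ker J x z t v) y * (y i - x i) + if i = l then ker J x y t v else 0 := by
  rw [pd_mul (differentiable_ker_snd hJ x t v y) (by fun_prop), pd_sub (by fun_prop) (by fun_prop),
    pd_coord, pd_const]
  split <;> ring

theorem pd_hker (a i j c : Fin 4) :
    pd a (fun z => hker J i j c (z, t, y, v)) x
      = -(∑ l, jm J x t v l a * pd l (fun z => ker J x z t v * (z i - x i)) y) * jm J x t v j c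
        + ker J x y t v * (exp t * dj J x v i a) * jm J x t v j c
        + ker J x y t v * (y i - x i) * pd a (fun z => jm J z t v j c) x := by
  have hk := differentiable_ker_fst hJ y t v x
  unfold hker
  rw [pd_mul (hk.fun_mul (by fun_prop)) (differentiable_jm hJ t v j c x), pd_mul hk (by fun_prop),
    pd_sub (by fun_prop) (by fun_prop), pd_const, pd_coord, pd_ker_fst hJ]
  simp only [pd_kerX hJ, Fin.sum_univ_four, jm]
  fin_cases i <;> fin_cases a <;> simp <;> ring

omit hJ in
theorem hasDerivAt_jm (i a : Fin 4) :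
    HasDerivAt (fun s => jm J x s v i a) (exp t * dj J x v i a) t := by
  simpa [jm] using ((Real.hasDerivAt_exp t).mul_const (dj J x v i a)).const_add
    (if i = a then (1 : ℝ) else 0)

theorem hasDerivAt_thetaKer (i j a b : Fin 4) :
    HasDerivAt (fun s => ker J x y s v * (jm J x s v i a * jm J x s v j b))
      (-(∑ l, pd l (fun z => ker J x z t v * (z l - x l)) y) * (jm J x t v i a * jm J x t v j b)
        + ker J x y t v * (exp t * dj J x v i a * jm J x t v j b
            + jm J x t v i a * (exp t * dj J x v j b))) t := by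
  refine ((deriv_ker hJ x y t v).fun_mul
    ((hasDerivAt_jm x t v i a).fun_mul (hasDerivAt_jm x t v j b))).congr_deriv ?_
  simp only [pd_kerX hJ, Fin.sum_univ_four, ↓reduceIte]
  ring

/-- The pointwise form of the homotopy identity. -/
theorem pd_hker_sub (u : M) (hu : ∀ i j, u j i = -u i j) (a b : Fin 4) :
    (∑ i, ∑ j, u i j * (pd a (fun z => hker J i j b (z, t, y, v)) x
        - pd b (fun z => hker J i j a (z, t, y, v)) x))
      = (∑ i, ∑ j, u i j *
          deriv (fun s => ker J x y s v * (jm J x s v i a * jm J x s v j b)) t)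
        - ∑ l, ∑ i, ∑ j, jm J x t v l a * jm J x t v j b *
            (u i j * pd l (fun z => ker J x z t v * (z i - x i)) y
              + u j l * pd i (fun z => ker J x z t v * (z i - x i)) y
              + u l i * pd j (fun z => ker J x z t v * (z i - x i)) y) := by
  have h1 := alg_closed u hu (fun l c => jm J x t v l c)
    (fun l i => pd l (fun z => ker J x z t v * (z i - x i)) y) a b
  have h2 := alg_time u hu (fun l c => jm J x t v l c) (fun l c => exp t * dj J x v l c) a b
  simp only [(hasDerivAt_thetaKer hJ x y t v _ _ a b).deriv, pd_hker hJ,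
    pd_jm_comm hJ x t v _ b a]
  simp only [Fin.sum_univ_four] at h1 h2 ⊢
  linear_combination h1 + ker J x y t v * h2

omit hJ in
theorem qd_le_one_of_ne_zero (h : ker J x y t v ≠ 0) : qd J x y t v ≤ 1 := by
  by_contra hq
  exact h (by simp [ker, dens_zero (not_le.1 hq)])

omit hJ in
theorem isCompact_qd : IsCompact {z | qd J x z t v ≤ 1} := by
  refine Metric.isCompact_of_isClosed_isBounded (isClosed_le ?_ continuous_const) ?_
  · unfold qd sq disp; fun_prop
  refine isBounded_iff_subset_closedBall (fun m => x m + exp t * ∑ l, J x m l * v l) |>.2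
    ⟨exp t, fun z (hz : qd J x z t v ≤ 1) => ?_⟩
  rw [mem_closedBall, dist_pi_le_iff (exp_pos t).le]
  intro m
  have h1 : disp J x z t v m * disp J x z t v m ≤ 1 := by
    refine le_trans ?_ ((le_add_of_nonneg_right (sq_nonneg v)).trans hz)
    exact Finset.single_le_sum (fun i _ => mul_self_nonneg (disp J x z t v i)) (Finset.mem_univ m)
  have h2 : |disp J x z t v m| ≤ 1 := abs_le.2 ⟨by nlinarith, by nlinarith⟩
  rw [Real.dist_eq, show z m - (x m + exp t * ∑ l, J x m l * v l)
    = exp t * disp J x z t v m by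
      unfold disp; rw [exp_neg]; field_simp; ring,
    abs_mul, abs_of_pos (exp_pos t)]
  simpa using mul_le_mul_of_nonneg_left h2 (exp_pos t).le

omit hJ in
theorem kerX_tsupport (i : Fin 4) :
    tsupport (fun z => ker J x z t v * (z i - x i)) ⊆ {z | qd J x z t v ≤ 1} := by
  refine closure_minimal (fun z hz => qd_le_one_of_ne_zero x z t v fun h => ?_)
    (isCompact_qd x t v).isClosed
  exact hz (by simp [h])

theorem isTest_kerX (hW : ∀ z, qd J x z t v ≤ 1 → z ∈ W) (i : Fin 4) :
    IsTest W fun z => ker J x z t v * (z i - x i) where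
  smooth := ((contDiff_ker hJ).comp (f := fun z => (x, (z, t, v))) (by fun_prop)).mul (by fun_prop)
  compact := (isCompact_qd x t v).of_isClosed_subset (isClosed_tsupport _) (kerX_tsupport x t v i)
  supp := (kerX_tsupport x t v i).trans hW

end pointwise

namespace Setup

variable (S : Setup J μ Θ L W B)
include S

theorem weight_yv (i j : Fin 4) :
    AEStronglyMeasurable (fun z : E × E => Θ z.1 i j) (yv μ) ∧
      ∀ᵐ z ∂yv μ, |Θ z.1 i j| ≤ B := by
  have := S.finite
  exact ⟨((S.meas i j).comp measurable_fst).aestronglyMeasurable,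
    (Measure.quasiMeasurePreserving_fst).ae (S.bound.mono fun y h => h i j)⟩

theorem finite_yv : IsFiniteMeasure (yv μ) := by
  have := S.finite
  have : IsFiniteMeasure (volume.restrict (closedBall (0 : E) 1)) :=
    isFiniteMeasure_restrict.2 measure_closedBall_lt_top.ne
  unfold yv; infer_instance

theorem weight_tyv (a b : ℝ) (i j : Fin 4) :
    AEStronglyMeasurable (fun z : ℝ × E × E => Θ z.2.1 i j) (tyv μ a b) ∧
      ∀ᵐ z ∂tyv μ a b, |Θ z.2.1 i j| ≤ B := by
  have := S.finite
  have := S.finite_yv
  exact ⟨((S.meas i j).comp (measurable_fst.comp measurable_snd)).aestronglyMeasurable,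
    (Measure.quasiMeasurePreserving_snd).ae (S.weight_yv i j).2⟩

theorem finite_tyv (a b : ℝ) : IsFiniteMeasure (tyv μ a b) := by
  have := S.finite_yv
  have : IsFiniteMeasure (volume.restrict (Icc a b)) :=
    isFiniteMeasure_restrict.2 measure_Icc_lt_top.ne
  unfold tyv; infer_instance

theorem carried_yv : yv μ (L ×ˢ closedBall 0 1)ᶜ = 0 := by
  have := S.finite
  rw [compl_prod_eq_union]
  refine measure_union_null ?_ ?_ <;> rw [yv, Measure.prod_prod]
  · simp [S.carried]
  · simp [Measure.restrict_apply measurableSet_closedBall.compl]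

theorem carried_tyv (a b : ℝ) : tyv μ a b (Icc a b ×ˢ L ×ˢ closedBall 0 1)ᶜ = 0 := by
  have := S.finite_yv
  rw [compl_prod_eq_union]
  refine measure_union_null ?_ ?_ <;> rw [tyv, Measure.prod_prod]
  · simp [Measure.restrict_apply measurableSet_Icc.compl]
  · simp [S.carried_yv]

theorem integrable_yv {F : E × E → ℝ} (hF : Continuous F) (i j : Fin 4) :
    Integrable (fun z => Θ z.1 i j * F z) (yv μ) := by
  have := S.finite_yv
  exact integrable_of_continuous (g := fun z : E × E => Θ z.1 i j)
    (S.compact.prod (isCompact_closedBall 0 1)) S.carried_yv (S.weight_yv i j).1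
    (S.weight_yv i j).2 hF

theorem integrable_tyv {F : ℝ × E × E → ℝ} (hF : Continuous F) (a b : ℝ) (i j : Fin 4) :
    Integrable (fun z => Θ z.2.1 i j * F z) (tyv μ a b) := by
  have := S.finite_tyv a b
  exact integrable_of_continuous (g := fun z : ℝ × E × E => Θ z.2.1 i j)
    (isCompact_Icc.prod (S.compact.prod (isCompact_closedBall 0 1))) (S.carried_tyv a b)
    (S.weight_tyv a b i j).1 (S.weight_tyv a b i j).2 hF

theorem contDiff_hform (a b : ℝ) (c : Fin 4) : ContDiff ℝ ∞ fun x => hform J μ Θ a b x c := by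
  have := S.finite_tyv a b
  refine ContDiff.sum fun i _ => ContDiff.sum fun j _ => ?_
  exact contDiff_param (isCompact_Icc.prod (S.compact.prod (isCompact_closedBall 0 1)))
    (S.carried_tyv a b) (S.weight_tyv a b i j).1 (S.weight_tyv a b i j).2
    (contDiff_hker S.smooth i j c)

theorem closed_term (x : E) (t : ℝ) (v : E) (hW : ∀ z, qd J x z t v ≤ 1 → z ∈ W)
    (a b : Fin 4) :
    ∫ y, ∑ l, ∑ i, ∑ j, jm J x t v l a * jm J x t v j b *
        (Θ y i j * pd l (fun z => ker J x z t v * (z i - x i)) y
          + Θ y j l * pd i (fun z => ker J x z t v * (z i - x i)) y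
          + Θ y l i * pd j (fun z => ker J x z t v * (z i - x i)) y) ∂μ = 0 := by
  have := S.finite
  have hi : ∀ p q (l i : Fin 4),
      Integrable (fun y => Θ y p q * pd l (fun z => ker J x z t v * (z i - x i)) y) μ :=
    fun p q l i => integrable_of_continuous (g := fun y => Θ y p q) S.compact S.carried
      (S.meas p q).aestronglyMeasurable (S.bound.mono fun y h => h p q)
      (contDiff_pd (isTest_kerX S.smooth x t v hW i).smooth l).continuous
  rw [integral_finsetSum _ fun l _ => integrable_finsetSum _ fun i _ => integrable_finsetSum _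
    fun j _ => (((hi i j l i).fun_add (hi j l i i)).fun_add (hi l i j i)).const_mul _]
  refine Finset.sum_eq_zero fun l _ => ?_
  rw [integral_finsetSum _ fun i _ => integrable_finsetSum _
    fun j _ => (((hi i j l i).fun_add (hi j l i i)).fun_add (hi l i j i)).const_mul _]
  refine Finset.sum_eq_zero fun i _ => ?_
  rw [integral_finsetSum _
    fun j _ => (((hi i j l i).fun_add (hi j l i i)).fun_add (hi l i j i)).const_mul _]
  refine Finset.sum_eq_zero fun j _ => ?_
  rw [integral_const_mul]
  simp [S.closed _ (isTest_kerX S.smooth x t v hW i) l i j]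

/-- The homotopy identity. -/
theorem dOne_hform {a b : ℝ} (hab : a ≤ b) (x : E)
    (hW : ∀ t ∈ Icc a b, ∀ v ∈ closedBall (0 : E) 1, ∀ z, qd J x z t v ≤ 1 → z ∈ W)
    (p q : Fin 4) :
    dOne (hform J μ Θ a b) x p q = theta J μ Θ b x p q - theta J μ Θ a x p q := by
  have := S.finite
  have := S.finite_yv
  have := S.finite_tyv a b
  have hJ := S.smooth
  set D : Fin 4 → Fin 4 → ℝ × E × E → ℝ := fun i j z =>
    deriv (fun s => ker J x z.2.1 s z.2.2 * (jm J x s z.2.2 i p * jm J x s z.2.2 j q)) z.1 with hD
  set C : ℝ × E × E → ℝ := fun z => ∑ l, ∑ i, ∑ j, jm J x z.1 z.2.2 l p * jm J x z.1 z.2.2 j q *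
    (Θ z.2.1 i j * pd l (fun w => ker J x w z.1 z.2.2 * (w i - x i)) z.2.1
      + Θ z.2.1 j l * pd i (fun w => ker J x w z.1 z.2.2 * (w i - x i)) z.2.1
      + Θ z.2.1 l i * pd j (fun w => ker J x w z.1 z.2.2 * (w i - x i)) z.2.1)
  have hjm : ∀ l c, Continuous fun z : ℝ × E × E => jm J x z.1 z.2.2 l c := fun l c =>
    ((contDiff_jm hJ l c).comp (f := fun z : ℝ × E × E => (x, (z.2.1, z.1, z.2.2)))
      (by fun_prop)).continuous
  have hk : Continuous fun z : ℝ × E × E => ker J x z.2.1 z.1 z.2.2 :=
    ((contDiff_ker hJ).comp (f := fun z : ℝ × E × E => (x, (z.2.1, z.1, z.2.2)))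
      (by fun_prop)).continuous
  have hkd : ∀ l, Continuous fun z : ℝ × E × E =>
      pd l (fun w => ker J x w z.1 z.2.2) z.2.1 := fun l => by
    have : (fun z : ℝ × E × E => pd l (fun w => ker J x w z.1 z.2.2) z.2.1) = fun z =>
        fderiv ℝ (fun r : E × ℝ × E => ker J x r.1 r.2.1 r.2.2) (z.2.1, z.1, z.2.2) (e l, 0) := by
      funext z
      have hd : DifferentiableAt ℝ (fun r : E × ℝ × E => ker J x r.1 r.2.1 r.2.2)
          (z.2.1, z.1, z.2.2) :=
        ((contDiff_ker hJ).comp (f := fun r : E × ℝ × E => (x, r))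
          (by fun_prop)).differentiable (by simp) _
      exact DFunLike.congr_fun (hd.hasFDerivAt.comp (f := fun w : E => (w, z.1, z.2.2)) z.2.1
        (hasFDerivAt_prodMk_left (𝕜 := ℝ) z.2.1 (z.1, z.2.2))).fderiv (e l)
    rw [this]
    exact (((contDiff_ker hJ).comp (f := fun r : E × ℝ × E => (x, r))
      (by fun_prop)).continuous_fderiv (by simp)).clm_apply continuous_const |>.comp (by fun_prop)
  have hkX : ∀ l i, Continuous fun z : ℝ × E × E =>
      pd l (fun w => ker J x w z.1 z.2.2 * (w i - x i)) z.2.1 := fun l i => by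
    simp only [pd_kerX hJ]
    exact ((hkd l).mul (by fun_prop)).add (by split <;> fun_prop)
  have hDc : ∀ i j, Continuous (D i j) := fun i j => by
    have hdj : ∀ l c, Continuous fun z : ℝ × E × E => dj J x z.2.2 l c := fun l c => by
      unfold dj; fun_prop
    simp only [hD, (hasDerivAt_thetaKer hJ x _ _ _ _ _ _ _).deriv]
    fun_prop
  have hDi : Integrable (fun z => ∑ i, ∑ j, Θ z.2.1 i j * D i j z) (tyv μ a b) :=
    integrable_finsetSum _ fun i _ => integrable_finsetSum _ fun j _ =>
      S.integrable_tyv (hDc i j) a b i j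
  have hCi : Integrable C (tyv μ a b) := by
    refine integrable_finsetSum _ fun l _ => integrable_finsetSum _ fun i _ =>
      integrable_finsetSum _ fun j _ => ?_
    have h : ∀ r s l' i', Integrable (fun z : ℝ × E × E => Θ z.2.1 r s *
        (jm J x z.1 z.2.2 l p * jm J x z.1 z.2.2 j q *
          pd l' (fun w => ker J x w z.1 z.2.2 * (w i' - x i')) z.2.1)) (tyv μ a b) :=
      fun r s l' i' => S.integrable_tyv (((hjm l p).mul (hjm j q)).mul (hkX l' i')) a b r s
    refine (((h i j l i).add (h j l i i)).add (h l i j i)).congr (Filter.Eventually.of_forall ?_)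
    intro z; simp only [Pi.add_apply]; ring
  have hC0 : ∫ z, C z ∂tyv μ a b = 0 := by
    rw [tyv, integral_prod _ hCi]
    refine integral_eq_zero_of_ae ?_
    filter_upwards [ae_restrict_mem measurableSet_Icc, hCi.prod_right_ae] with t ht hti
    rw [yv] at hti ⊢
    rw [integral_prod_symm _ hti]
    refine integral_eq_zero_of_ae ?_
    filter_upwards [ae_restrict_mem measurableSet_closedBall] with v hv
    exact S.closed_term x t v (hW t ht v hv) p q
  have hLHS : dOne (hform J μ Θ a b) x p q
      = ∫ z, (∑ i, ∑ j, Θ z.2.1 i j * D i j z) - C z ∂tyv μ a b := by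
    have hpd : ∀ r c, pd r (fun w => hform J μ Θ a b w c) x
        = ∑ i, ∑ j, ∫ z, Θ z.2.1 i j * pd r (fun w => hker J i j c (w, z)) x ∂tyv μ a b := by
      intro r c
      have hd : ∀ i j, DifferentiableAt ℝ
          (fun w => ∫ z, Θ z.2.1 i j • hker J i j c (w, z) ∂tyv μ a b) x := fun i j =>
        (hasFDerivAt_param (isCompact_Icc.prod (S.compact.prod (isCompact_closedBall 0 1)))
          (S.carried_tyv a b) (S.weight_tyv a b i j).1 (S.weight_tyv a b i j).2
          (contDiff_hker hJ i j c) x).differentiableAt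
      unfold hform
      rw [pd_sum _ fun i _ => DifferentiableAt.fun_sum fun j _ => hd i j]
      refine Finset.sum_congr rfl fun i _ => ?_
      rw [pd_sum _ fun j _ => hd i j]
      refine Finset.sum_congr rfl fun j _ => ?_
      exact fderiv_param (isCompact_Icc.prod (S.compact.prod (isCompact_closedBall 0 1)))
          (S.carried_tyv a b) (S.weight_tyv a b i j).1 (S.weight_tyv a b i j).2
          (contDiff_hker hJ i j c) x (e r)
    have hpi : ∀ r c i j, Integrable
        (fun z => Θ z.2.1 i j * pd r (fun w => hker J i j c (w, z)) x) (tyv μ a b) := by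
      intro r c i j
      refine S.integrable_tyv ?_ a b i j
      simp only [fun z : ℝ × E × E => show pd r (fun w => hker J i j c (w, z)) x
        = dfst (hker J i j c) (x, z) (e r) from DFunLike.congr_fun
          (hasFDerivAt_fst ((contDiff_hker hJ i j c).differentiable (by simp)) x z).fderiv (e r)]
      exact ((contDiff_dfst (contDiff_hker hJ i j c)).continuous.clm_apply
        continuous_const).comp (by fun_prop)
    show pd p (fun w => hform J μ Θ a b w q) x - pd q (fun w => hform J μ Θ a b w p) x = _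
    rw [hpd, hpd]
    simp only [← Finset.sum_sub_distrib, ← integral_sub (hpi _ _ _ _) (hpi _ _ _ _)]
    rw [← Finset.sum_congr rfl fun i _ =>
      integral_finsetSum Finset.univ fun j _ => (hpi p q i j).sub' (hpi q p i j),
      ← integral_finsetSum Finset.univ fun i _ =>
        integrable_finsetSum _ fun j _ => (hpi p q i j).sub' (hpi q p i j)]
    have hsk : ∀ᵐ z ∂tyv μ a b, ∀ i j, Θ z.2.1 j i = -Θ z.2.1 i j :=
      Measure.quasiMeasurePreserving_snd.ae (Measure.quasiMeasurePreserving_fst.ae S.skew)
    refine integral_congr_ae (hsk.mono fun z hz => ?_)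
    show _ = (∑ i, ∑ j, Θ z.2.1 i j * D i j z) - C z
    simp only [← mul_sub]
    exact pd_hker_sub hJ x z.2.1 z.1 z.2.2 (Θ z.2.1) hz p q
  rw [hLHS, integral_sub hDi hCi, hC0, sub_zero, tyv, integral_prod_symm _ hDi]
  unfold theta
  rw [← integral_sub
    (integrable_finsetSum _ fun i _ => integrable_finsetSum _ fun j _ => S.integrable_yv (by
      exact ((contDiff_ker hJ).comp (f := fun z : E × E => (x, (z.1, b, z.2)))
        (by fun_prop)).continuous.mul
          (((contDiff_jm hJ i p).comp (f := fun z : E × E => (x, (z.1, b, z.2)))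
            (by fun_prop)).continuous.mul
          ((contDiff_jm hJ j q).comp (f := fun z : E × E => (x, (z.1, b, z.2)))
            (by fun_prop)).continuous)) i j)
    (integrable_finsetSum _ fun i _ => integrable_finsetSum _ fun j _ => S.integrable_yv (by
      exact ((contDiff_ker hJ).comp (f := fun z : E × E => (x, (z.1, a, z.2)))
        (by fun_prop)).continuous.mul
          (((contDiff_jm hJ i p).comp (f := fun z : E × E => (x, (z.1, a, z.2)))
            (by fun_prop)).continuous.mul
          ((contDiff_jm hJ j q).comp (f := fun z : E × E => (x, (z.1, a, z.2)))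
            (by fun_prop)).continuous)) i j)]
  refine integral_congr_ae (Filter.Eventually.of_forall fun z => ?_)
  have hder : ∀ t, HasDerivAt (fun s => ∑ i, ∑ j, Θ z.1 i j *
      (ker J x z.1 s z.2 * (jm J x s z.2 i p * jm J x s z.2 j q)))
      (∑ i, ∑ j, Θ z.1 i j * D i j (t, z)) t := fun t =>
    HasDerivAt.fun_sum fun i _ => HasDerivAt.fun_sum fun j _ =>
      ((hasDerivAt_thetaKer hJ x z.1 t z.2 i j p q).differentiableAt.hasDerivAt).const_mul _
  have hc : Continuous fun t => ∑ i, ∑ j, Θ z.1 i j * D i j (t, z) :=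
    continuous_finsetSum _ fun i _ => continuous_finsetSum _ fun j _ =>
      continuous_const.mul ((hDc i j).comp (by fun_prop))
  show ∫ t in Icc a b, ∑ i, ∑ j, Θ z.1 i j * D i j (t, z) = _
  rw [integral_Icc_eq_integral_Ioc, ← intervalIntegral.integral_of_le hab]
  exact intervalIntegral.integral_eq_sub_of_hasDerivAt (fun t _ => hder t) (hc.intervalIntegrable a b)

end Setup

end Vale.Agent.P204.Tame.ElMir
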