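import Vale.Agent.P204.Tame.Core

/-!
The averaging kernels for the homotopy between two smoothings of a current: a radial bump on
`E × E` pushed forward by `(u, v) ↦ x + exp t • (u + J x v)`.
-/

namespace Vale.Agent.P204.Tame.ElMir

open scoped ContDiff Matrix
open Real (smoothTransition exp)

/-! ### Calculus of partial derivatives -/

section pd

variable {f g : E → ℝ} {x : E} {i : Fin 4}

theorem pd_const (c : ℝ) : pd i (fun _ => c) x = 0 := by simp [pd]

theorem pd_add (hf : DifferentiableAt ℝ f x) (hg : DifferentiableAt ℝ g x) :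
    pd i (fun z => f z + g z) x = pd i f x + pd i g x := by
  simp [pd, fderiv_fun_add hf hg]

theorem pd_sub (hf : DifferentiableAt ℝ f x) (hg : DifferentiableAt ℝ g x) :
    pd i (fun z => f z - g z) x = pd i f x - pd i g x := by
  simp [pd, fderiv_fun_sub hf hg]

theorem pd_mul (hf : DifferentiableAt ℝ f x) (hg : DifferentiableAt ℝ g x) :
    pd i (fun z => f z * g z) x = pd i f x * g x + f x * pd i g x := by
  simp [pd, fderiv_fun_mul hf hg]; ring

theorem pd_const_mul (c : ℝ) (hf : DifferentiableAt ℝ f x) :
    pd i (fun z => c * f z) x = c * pd i f x := by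
  simp [pd, fderiv_const_mul hf]

theorem pd_sum {ι : Type*} (s : Finset ι) {F : ι → E → ℝ}
    (hF : ∀ a ∈ s, DifferentiableAt ℝ (F a) x) :
    pd i (fun z => ∑ a ∈ s, F a z) x = ∑ a ∈ s, pd i (F a) x := by
  simp [pd, fderiv_fun_sum hF]

theorem pd_coord (m : Fin 4) : pd i (fun z => z m) x = if m = i then 1 else 0 := by
  have h := (hasFDerivAt_apply (𝕜 := ℝ) m x).fderiv
  simp only [pd, h]
  simp [e, Pi.single_apply]

theorem pd_comp {h : ℝ → ℝ} (hf : DifferentiableAt ℝ f x) (hh : DifferentiableAt ℝ h (f x)) :
    pd i (fun z => h (f z)) x = deriv h (f x) * pd i f x := by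
  have := fderiv_comp x hh hf
  simp only [pd]
  rw [show (fun z => h (f z)) = h ∘ f from rfl, this]
  simp [mul_comm]

theorem contDiff_pd {F : E → ℝ} (hF : ContDiff ℝ ∞ F) (j : Fin 4) : ContDiff ℝ ∞ (pd j F) :=
  ContDiff.clm_apply (hF.fderiv_right (m := ∞) le_rfl) contDiff_const

end pd

/-! ### The bump -/

/-- The squared Euclidean norm. -/
def sq (v : E) : ℝ := ∑ m, v m * v m

theorem sq_nonneg (v : E) : 0 ≤ sq v := Finset.sum_nonneg fun m _ => mul_self_nonneg (v m)

/-- The profile of the bump: one at zero, zero from one on. -/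
noncomputable def prof (r : ℝ) : ℝ := smoothTransition (1 - r)

/-- The profile of the averaging density. -/
noncomputable def dens (r : ℝ) : ℝ := -2 * deriv prof r

theorem contDiff_prof : ContDiff ℝ ∞ prof :=
  smoothTransition.contDiff.comp (contDiff_const.sub contDiff_id)

theorem contDiff_dens : ContDiff ℝ ∞ dens :=
  contDiff_const.mul ((contDiff_infty_iff_deriv.1 contDiff_prof).2)

theorem prof_nonneg (r : ℝ) : 0 ≤ prof r := smoothTransition.nonneg _

theorem prof_le_one (r : ℝ) : prof r ≤ 1 := smoothTransition.le_one _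

theorem prof_zero {r : ℝ} (h : 1 ≤ r) : prof r = 0 :=
  smoothTransition.zero_of_nonpos (by linarith)

theorem prof_pos {r : ℝ} (h : r < 1) : 0 < prof r := smoothTransition.pos_of_pos (by linarith)

theorem prof_antitone : Antitone prof := fun _ _ h => smoothTransition.monotone (by linarith)

theorem dens_nonneg (r : ℝ) : 0 ≤ dens r := by
  have := prof_antitone.deriv_nonpos (x := r)
  unfold dens; linarith

theorem dens_zero {r : ℝ} (h : 1 < r) : dens r = 0 := by
  have : prof =ᶠ[nhds r] fun _ => (0 : ℝ) :=
    (eventually_gt_nhds h).mono fun z hz => prof_zero hz.le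
  simp [dens, this.deriv_eq]

theorem pd_sq (u : Fin 4 → E → ℝ) {x : E} {i : Fin 4} (hu : ∀ m, DifferentiableAt ℝ (u m) x) :
    pd i (fun z => sq fun m => u m z) x = 2 * ∑ m, u m x * pd i (u m) x := by
  unfold sq
  rw [pd_sum (F := fun m z => u m z * u m z) _ fun m _ => (hu m).fun_mul (hu m), Finset.mul_sum]
  exact Finset.sum_congr rfl fun m _ => by rw [pd_mul (hu m) (hu m)]; ring

theorem differentiableAt_sq {u : Fin 4 → E → ℝ} {x : E} (hu : ∀ m, DifferentiableAt ℝ (u m) x) :
    DifferentiableAt ℝ (fun z => sq fun m => u m z) x :=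
  DifferentiableAt.fun_sum fun m _ => (hu m).fun_mul (hu m)

/-! ### The kernels -/

variable (J : E → M)

/-- The rescaled displacement. -/
noncomputable def disp (x y : E) (t : ℝ) (v : E) (m : Fin 4) : ℝ :=
  exp (-t) * (y m - x m) - ∑ l, J x m l * v l

/-- The squared distance on `E × E`. -/
noncomputable def qd (x y : E) (t : ℝ) (v : E) : ℝ := sq (disp J x y t v) + sq v

/-- The potential kernel. -/
noncomputable def pot (x y : E) (t : ℝ) (v : E) : ℝ := exp (-2 * t) * prof (qd J x y t v)

/-- The density kernel. -/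
noncomputable def ker (x y : E) (t : ℝ) (v : E) : ℝ := exp (-4 * t) * dens (qd J x y t v)

/-- The derivative of `x ↦ J x v`. -/
noncomputable def dj (x v : E) (m a : Fin 4) : ℝ := ∑ l, pd a (fun z => J z m l) x * v l

/-- The derivative of `x ↦ x + exp t • J x v`. -/
noncomputable def jm (x : E) (t : ℝ) (v : E) (m a : Fin 4) : ℝ :=
  (if m = a then 1 else 0) + exp t * dj J x v m a

variable {J} (hJ : ∀ i j, ContDiff ℝ ∞ fun x => J x i j)
include hJ

theorem contDiff_disp (m : Fin 4) :
    ContDiff ℝ ∞ fun p : E × (E × ℝ × E) => disp J p.1 p.2.1 p.2.2.1 p.2.2.2 m := by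
  have := hJ
  unfold disp
  fun_prop

theorem contDiff_qd :
    ContDiff ℝ ∞ fun p : E × (E × ℝ × E) => qd J p.1 p.2.1 p.2.2.1 p.2.2.2 := by
  have := fun m => contDiff_disp hJ m
  unfold qd sq
  fun_prop

theorem contDiff_pot :
    ContDiff ℝ ∞ fun p : E × (E × ℝ × E) => pot J p.1 p.2.1 p.2.2.1 p.2.2.2 := by
  have h := contDiff_prof.comp (contDiff_qd hJ)
  unfold pot
  exact ContDiff.mul (by fun_prop) h

theorem contDiff_ker :
    ContDiff ℝ ∞ fun p : E × (E × ℝ × E) => ker J p.1 p.2.1 p.2.2.1 p.2.2.2 := by
  have h := contDiff_dens.comp (contDiff_qd hJ)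
  unfold ker
  exact ContDiff.mul (by fun_prop) h

theorem contDiff_dj (m a : Fin 4) :
    ContDiff ℝ ∞ fun p : E × E => dj J p.1 p.2 m a := by
  have := fun l => contDiff_pd (hJ m l) a
  unfold dj
  fun_prop

theorem contDiff_jm (m a : Fin 4) :
    ContDiff ℝ ∞ fun p : E × (E × ℝ × E) => jm J p.1 p.2.2.1 p.2.2.2 m a := by
  have h : ContDiff ℝ ∞ fun p : E × (E × ℝ × E) => dj J p.1 p.2.2.2 m a :=
    (contDiff_dj hJ m a).comp (f := fun p : E × (E × ℝ × E) => (p.1, p.2.2.2)) (by fun_prop)
  unfold jm
  exact ContDiff.add (by fun_prop) (ContDiff.mul (by fun_prop) h)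

variable (x y : E) (t : ℝ) (v : E)

omit hJ in
theorem pd_disp_snd (l m : Fin 4) :
    pd l (fun z => disp J x z t v m) y = if m = l then exp (-t) else 0 := by
  unfold disp
  rw [pd_sub (by fun_prop) (by fun_prop), pd_const, pd_const_mul _ (by fun_prop),
    pd_sub (by fun_prop) (by fun_prop), pd_coord, pd_const]
  split <;> simp

theorem pd_disp_fst (a m : Fin 4) :
    pd a (fun z => disp J z y t v m) x = -(if m = a then exp (-t) else 0) - dj J x v m a := by
  have hd : ∀ l, DifferentiableAt ℝ (fun z => J z m l) x :=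
    fun l => ((hJ m l).differentiable (by simp)) x
  have hs : DifferentiableAt ℝ (fun z => ∑ l, J z m l * v l) x :=
    DifferentiableAt.fun_sum fun l _ => (hd l).mul_const _
  unfold disp
  rw [pd_sub (by fun_prop) hs, pd_const_mul _ (by fun_prop), pd_sub (by fun_prop) (by fun_prop),
    pd_coord, pd_const, pd_sum _ fun l _ => (hd l).mul_const _]
  have : ∀ l, pd a (fun z => J z m l * v l) x = pd a (fun z => J z m l) x * v l := fun l => by
    rw [pd_mul (hd l) (by fun_prop), pd_const]; ring
  simp only [this, dj]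
  split <;> ring

omit hJ in
theorem pd_disp_par (l m : Fin 4) :
    pd l (fun u => disp J x y t u m) v = -J x m l := by
  unfold disp
  rw [pd_sub (by fun_prop) (by fun_prop), pd_const, pd_sum _ fun _ _ => by fun_prop]
  have : ∀ n, pd l (fun u => J x m n * u n) v = if n = l then J x m n else 0 := fun n => by
    rw [pd_const_mul _ (by fun_prop), pd_coord]; split <;> simp
  simp [this]

omit hJ in
theorem differentiable_disp_snd (m : Fin 4) :
    Differentiable ℝ fun z => disp J x z t v m := by unfold disp; fun_prop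

theorem differentiable_disp_fst (m : Fin 4) :
    Differentiable ℝ fun z => disp J z y t v m :=
  ((contDiff_disp hJ m).comp (f := fun z => (z, (y, t, v))) (by fun_prop)).differentiable (by simp)

omit hJ in
theorem differentiable_disp_par (m : Fin 4) :
    Differentiable ℝ fun u => disp J x y t u m := by unfold disp; fun_prop

omit hJ in
theorem pd_qd_snd (l : Fin 4) :
    pd l (fun z => qd J x z t v) y = 2 * exp (-t) * disp J x y t v l := by
  have h := fun m => differentiable_disp_snd (J := J) x t v m y
  show pd l (fun z => sq (fun m => disp J x z t v m) + sq v) y = _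
  rw [pd_add (differentiableAt_sq h) (differentiableAt_const _), pd_const,
    pd_sq (fun m z => disp J x z t v m) h]
  simp [pd_disp_snd]
  ring

theorem pd_qd_fst (a : Fin 4) :
    pd a (fun z => qd J z y t v) x
      = -2 * exp (-t) * disp J x y t v a - 2 * ∑ m, disp J x y t v m * dj J x v m a := by
  have h := fun m => differentiable_disp_fst hJ y t v m x
  show pd a (fun z => sq (fun m => disp J z y t v m) + sq v) x = _
  rw [pd_add (differentiableAt_sq h) (differentiableAt_const _), pd_const,
    pd_sq (fun m z => disp J z y t v m) h]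
  simp only [pd_disp_fst hJ, Fin.sum_univ_four]
  fin_cases a <;> simp <;> ring

omit hJ in
theorem pd_qd_par (l : Fin 4) :
    pd l (fun u => qd J x y t u) v = 2 * v l - 2 * ∑ m, disp J x y t v m * J x m l := by
  have h := fun m => differentiable_disp_par (J := J) x y t m v
  have hc : ∀ m, DifferentiableAt ℝ (fun u : E => u m) v := by fun_prop
  show pd l (fun u => sq (fun m => disp J x y t u m) + sq (fun m => u m)) v = _
  rw [pd_add (differentiableAt_sq h) (differentiableAt_sq hc),
    pd_sq (fun m z => disp J x y t z m) h, pd_sq (fun m z => z m) hc]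
  simp only [pd_disp_par, pd_coord, Fin.sum_univ_four]
  fin_cases l <;> simp <;> ring

omit hJ in
theorem deriv_qd :
    HasDerivAt (fun s => qd J x y s v)
      (-2 * exp (-t) * ∑ m, disp J x y t v m * (y m - x m)) t := by
  have h : ∀ m, HasDerivAt (fun s => disp J x y s v m) (-exp (-t) * (y m - x m)) t := fun m => by
    have := ((Real.hasDerivAt_exp (-t)).comp t (hasDerivAt_neg t)).mul_const (y m - x m)
    simpa [disp, Function.comp_def] using this.sub_const (∑ l, J x m l * v l)
  have := (HasDerivAt.fun_sum (u := Finset.univ) fun m _ => (h m).mul (h m)).add_const (sq v)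
  refine this.congr_deriv ?_
  simp only [Fin.sum_univ_four]
  ring

theorem pd_pot_snd (l : Fin 4) :
    pd l (fun z => pot J x z t v) y
      = -(exp (-3 * t) * dens (qd J x y t v) * disp J x y t v l) := by
  have hq : DifferentiableAt ℝ (fun z => qd J x z t v) y :=
    ((contDiff_qd hJ).comp (f := fun z => (x, (z, t, v))) (by fun_prop)).differentiable (by simp) y
  have hp : DifferentiableAt ℝ prof (qd J x y t v) := contDiff_prof.differentiable (by simp) _
  unfold pot
  rw [pd_const_mul _ (hp.fun_comp' y hq), pd_comp hq hp, pd_qd_snd, dens,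
    show (-3 : ℝ) * t = -2 * t + -t by ring, Real.exp_add]
  ring

theorem pd_pot_fst (a : Fin 4) :
    pd a (fun z => pot J z y t v) x
      = -pd a (fun z => pot J x z t v) y
        + exp (-2 * t) * dens (qd J x y t v) * ∑ m, disp J x y t v m * dj J x v m a := by
  have hq : DifferentiableAt ℝ (fun z => qd J z y t v) x :=
    ((contDiff_qd hJ).comp (f := fun z => (z, (y, t, v))) (by fun_prop)).differentiable (by simp) x
  have hp : DifferentiableAt ℝ prof (qd J x y t v) := contDiff_prof.differentiable (by simp) _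
  rw [pd_pot_snd hJ]
  unfold pot
  rw [pd_const_mul _ (hp.fun_comp' x hq), pd_comp hq hp, pd_qd_fst hJ, dens,
    show (-3 : ℝ) * t = -2 * t + -t by ring, Real.exp_add]
  ring

theorem pd_pot_par (l : Fin 4) :
    pd l (fun u => pot J x y t u) v
      = exp (-2 * t) * dens (qd J x y t v) * ((∑ m, disp J x y t v m * J x m l) - v l) := by
  have hq : DifferentiableAt ℝ (fun u => qd J x y t u) v :=
    ((contDiff_qd hJ).comp (f := fun u => (x, (y, t, u))) (by fun_prop)).differentiable (by simp) v
  have hp : DifferentiableAt ℝ prof (qd J x y t v) := contDiff_prof.differentiable (by simp) _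
  unfold pot
  rw [pd_const_mul _ (hp.fun_comp' v hq), pd_comp hq hp, pd_qd_par, dens]
  ring

theorem pd_ker_fst (a : Fin 4) :
    pd a (fun z => ker J z y t v) x
      = -∑ m, jm J x t v m a * pd m (fun z => ker J x z t v) y := by
  have hp : DifferentiableAt ℝ dens (qd J x y t v) := contDiff_dens.differentiable (by simp) _
  have hqx : DifferentiableAt ℝ (fun z => qd J z y t v) x :=
    ((contDiff_qd hJ).comp (f := fun z => (z, (y, t, v))) (by fun_prop)).differentiable (by simp) x
  have hqy : DifferentiableAt ℝ (fun z => qd J x z t v) y :=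
    ((contDiff_qd hJ).comp (f := fun z => (x, (z, t, v))) (by fun_prop)).differentiable (by simp) y
  have he : exp t * exp (-t) = 1 := by rw [← Real.exp_add]; simp
  unfold ker
  simp only [pd_const_mul (i := _) _ (hp.fun_comp' x hqx), pd_const_mul (i := _) _ (hp.fun_comp' y hqy),
    pd_comp (h := dens) hqx hp, pd_comp (h := dens) hqy hp, pd_qd_fst hJ, pd_qd_snd, jm,
    Fin.sum_univ_four]
  fin_cases a <;> simp <;>
    linear_combination (2 * exp (-(4 * t)) * deriv dens (qd J x y t v) *
      (disp J x y t v 0 * dj J x v 0 _ + disp J x y t v 1 * dj J x v 1 _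
        + disp J x y t v 2 * dj J x v 2 _ + disp J x y t v 3 * dj J x v 3 _)) * he

theorem deriv_ker :
    HasDerivAt (fun s => ker J x y s v)
      (-4 * ker J x y t v - ∑ l, (y l - x l) * pd l (fun z => ker J x z t v) y) t := by
  have hp : DifferentiableAt ℝ dens (qd J x y t v) := contDiff_dens.differentiable (by simp) _
  have hqy : DifferentiableAt ℝ (fun z => qd J x z t v) y :=
    ((contDiff_qd hJ).comp (f := fun z => (x, (z, t, v))) (by fun_prop)).differentiable (by simp) y
  have h1 : HasDerivAt (fun s => exp (-4 * s)) (exp (-4 * t) * -4) t := by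
    simpa using ((hasDerivAt_id t).const_mul (-4 : ℝ)).exp
  have := h1.mul (hp.hasDerivAt.comp t (deriv_qd x y t v))
  refine this.congr_deriv ?_
  unfold ker
  simp only [pd_const_mul (i := _) _ (hp.fun_comp' y hqy), pd_comp (h := dens) hqy hp, pd_qd_snd,
    Fin.sum_univ_four, Function.comp]
  ring

end Vale.Agent.P204.Tame.ElMir
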