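import Vale.Agent.P204.Tame.ElMir.Decomp

/-!
The smoothed current is almost semipositive, and is bounded at each fixed scale.
-/

namespace Vale.Agent.P204.Tame.ElMir

open scoped ContDiff Matrix NNReal
open MeasureTheory Metric Set Real

theorem abs_val_le {u : M} {p q : E} {U P Q : ℝ} (hu : ∀ i j, |u i j| ≤ U) (hp : ∀ i, |p i| ≤ P)
    (hq : ∀ i, |q i| ≤ Q) : |val u p q| ≤ 16 * (U * P * Q) := by
  have hU : 0 ≤ U := (abs_nonneg _).trans (hu 0 0)
  have hP : 0 ≤ P := (abs_nonneg _).trans (hp 0)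
  unfold val dotProduct Matrix.mulVec dotProduct
  simp only [Finset.mul_sum]
  refine (abs_sum4_le fun i => abs_sum4_le fun j => ?_).trans_eq
    (show 4 * (4 * (P * (U * Q))) = _ by ring)
  rw [abs_mul, abs_mul]
  exact mul_le_mul (hp i) (mul_le_mul (hu i j) (hq j) (abs_nonneg _) hU) (by positivity) hP

theorem abs_mulVec_le {A : M} {p : E} {a P : ℝ} (hA : ∀ i j, |A i j| ≤ a) (hp : ∀ i, |p i| ≤ P)
    (i : Fin 4) : |(A *ᵥ p) i| ≤ 4 * (a * P) := by
  show |∑ j, A i j * p j| ≤ _
  refine abs_sum4_le fun j => ?_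
  rw [abs_mul]
  exact mul_le_mul (hA i j) (hp j) (abs_nonneg _) ((abs_nonneg _).trans (hA i j))

theorem norm_sq_le_dot (w : E) : ‖w‖ ^ 2 ≤ w ⬝ᵥ w := by
  have h0 : 0 ≤ w ⬝ᵥ w := Finset.sum_nonneg fun i _ => mul_self_nonneg (w i)
  have h : ‖w‖ ≤ Real.sqrt (w ⬝ᵥ w) := by
    refine (pi_norm_le_iff_of_nonneg (Real.sqrt_nonneg _)).2 fun m => ?_
    rw [Real.norm_eq_abs, ← Real.sqrt_mul_self_eq_abs]
    exact Real.sqrt_le_sqrt
      (Finset.single_le_sum (fun i _ => mul_self_nonneg (w i)) (Finset.mem_univ m))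
  exact (pow_le_pow_left₀ (norm_nonneg _) h 2).trans_eq (Real.sq_sqrt h0)

variable {J : E → M} {μ : Measure E} {Θ : E → M} {L W : Set E} {B K : ℝ}

/-- The differential of `x ↦ x + exp t • J x v` as a matrix. -/
noncomputable def jmat (J : E → M) (x : E) (t : ℝ) (v : E) : M :=
  Matrix.of fun m a => jm J x t v m a

theorem sum_val (u : M) (x : E) (t : ℝ) (v p q : E) :
    (∑ a, ∑ b, p a * (∑ i, ∑ j, u i j * (jm J x t v i a * jm J x t v j b)) * q b)
      = val u (jmat J x t v *ᵥ p) (jmat J x t v *ᵥ q) := by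
  simp only [val, jmat, Matrix.mulVec, dotProduct, Matrix.of_apply, Fin.sum_univ_four]
  ring

/-- Pointwise lower bound for the integrand of the smoothed current. -/
theorem val_jmat_lower (hc : Coeff J K) {x y v : E} {t : ℝ} {u : M} (h : qd J x y t v ≤ 1)
    (hJy : J y * J y = -1) (hu : Psd (J y) u) (hB : ∀ i j, |u i j| ≤ B) (w : E) :
    -((16 * K * B) * ((4 * (K * (1 + 4 * K) + 32 * K * K)) * exp t * ‖w‖) ^ 2)
      ≤ val u (jmat J x t v *ᵥ w) (jmat J x t v *ᵥ (J x *ᵥ w)) := by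
  have hK : 0 ≤ K := (hc.bJ 0 0).nonneg
  set A := jmat J x t v with hA
  set d : E := (A * J x - J y * A) *ᵥ w
  have hd : A *ᵥ (J x *ᵥ w) = J y *ᵥ (A *ᵥ w) + d := by
    simp [d, Matrix.sub_mulVec, Matrix.mulVec_mulVec]
  have hD : ∀ i b, |(A * J x - J y * A) i b| ≤ (K * (1 + 4 * K) + 32 * K * K) * exp t := by
    intro i b
    have e1 : (A * J x - J y * A) i b = (J x i b - J y i b)
        + exp t * ((∑ l, dj J x v i l * J x l b) - ∑ l, J y i l * dj J x v l b) := by
      simp only [hA, jmat, jm, Matrix.sub_apply, Matrix.mul_apply, Matrix.of_apply, add_mul,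
        mul_add, Finset.sum_add_distrib, ite_mul, mul_ite, one_mul, mul_one, zero_mul, mul_zero,
        Finset.sum_ite_eq, Finset.sum_ite_eq', Finset.mem_univ, if_true, mul_sub, Finset.mul_sum]
      simp only [mul_assoc, mul_left_comm]
      ring
    rw [e1]
    refine (abs_add_le _ _).trans ?_
    rw [abs_mul, abs_of_pos (exp_pos t), add_mul]
    refine add_le_add ?_ ?_
    · refine ((hc.bJ i b).2 x y).trans ?_
      rw [mul_assoc, norm_sub_rev]
      exact mul_le_mul_of_nonneg_left (hc.norm_sub_le h) hK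
    · rw [mul_comm (exp t)]
      refine mul_le_mul_of_nonneg_right ((abs_sub _ _).trans ?_) (exp_pos t).le
      calc _ ≤ 4 * (4 * K * K) + 4 * (K * (4 * K)) := by
            refine add_le_add (abs_sum4_le fun l => ?_) (abs_sum4_le fun l => ?_) <;> rw [abs_mul]
            · exact mul_le_mul (hc.abs_dj_le h i l) ((hc.bJ l b).1 x) (abs_nonneg _) (by positivity)
            · exact mul_le_mul ((hc.bJ i l).1 y) (hc.abs_dj_le h l b) (abs_nonneg _) hK
        _ = _ := by ring
  have hdi : ∀ i, |d i| ≤ (4 * (K * (1 + 4 * K) + 32 * K * K)) * exp t * ‖w‖ := fun i => by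
    refine (abs_mulVec_le hD (fun j => by simpa using norm_le_pi_norm w j) i).trans_eq ?_
    ring
  have hJd : ∀ i, |(-(J y *ᵥ d)) i| ≤ 4 * (K * ((4 * (K * (1 + 4 * K) + 32 * K * K)) * exp t * ‖w‖)) :=
    fun i => by
      rw [Pi.neg_apply, abs_neg]
      exact abs_mulVec_le (fun i j => (hc.bJ i j).1 y) hdi i
  have h1 := val_near hJy hu (A *ᵥ w) d
  rw [← hd] at h1
  refine le_trans ?_ h1
  have h2 := abs_le.1 (abs_val_le hB hJd hdi)
  nlinarith [h2.2]

namespace Setup

variable (S : Setup J μ Θ L W B)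
include S

theorem integrable_thetaKer (t : ℝ) (x : E) (a b : Fin 4) :
    Integrable (fun z => ∑ i, ∑ j, Θ z.1 i j *
      (ker J x z.1 t z.2 * (jm J x t z.2 i a * jm J x t z.2 j b))) (yv μ) :=
  integrable_finsetSum _ fun i _ => integrable_finsetSum _ fun j _ => S.integrable_yv
    (((contDiff_ker S.smooth).comp (f := fun z : E × E => (x, (z.1, t, z.2)))
        (by fun_prop)).continuous.mul
      (((contDiff_jm S.smooth i a).comp (f := fun z : E × E => (x, (z.1, t, z.2)))
        (by fun_prop)).continuous.mul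
      ((contDiff_jm S.smooth j b).comp (f := fun z : E × E => (x, (z.1, t, z.2)))
        (by fun_prop)).continuous)) i j

/-- The smoothed current is almost semipositive. -/
theorem theta_lower (hc : Coeff J K) (hp : PtCond J μ Θ W) :
    ∃ C, 0 ≤ C ∧ ∀ T t : ℝ, t ≤ T → ∀ x, Inside J W T x → ∀ w,
      -(C * exp (-2 * t) * μ.real (closedBall x ((1 + 4 * K) * exp t)) * (w ⬝ᵥ w))
        ≤ val (theta J μ Θ t x) w (J x *ᵥ w) := by
  obtain ⟨P, hP⟩ := exists_dens_bound
  have hP0 : 0 ≤ P := (dens_nonneg 0).trans (hP 0 le_rfl)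
  have hK : 0 ≤ K := (hc.bJ 0 0).nonneg
  set D : ℝ := 4 * (K * (1 + 4 * K) + 32 * K * K) with hD
  set C₁ : ℝ := P * ((16 * K * max B 0) * D ^ 2) with hC₁
  set V₁ : ℝ := (volume : Measure E).real (closedBall (0 : E) 1) with hV₁
  refine ⟨C₁ * V₁, by positivity, fun T t ht x hx w => ?_⟩
  have := S.finite
  have := S.finite_yv
  have hsum : ∫ z, ker J x z.1 t z.2 * val (Θ z.1) (jmat J x t z.2 *ᵥ w)
      (jmat J x t z.2 *ᵥ (J x *ᵥ w)) ∂yv μ = val (theta J μ Θ t x) w (J x *ᵥ w) := by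
    have hi := fun a b => ((S.integrable_thetaKer t x a b).const_mul (w a)).mul_const ((J x *ᵥ w) b)
    calc ∫ z, ker J x z.1 t z.2 * val (Θ z.1) (jmat J x t z.2 *ᵥ w)
            (jmat J x t z.2 *ᵥ (J x *ᵥ w)) ∂yv μ
        = ∫ z, ∑ a, ∑ b, w a * (∑ i, ∑ j, Θ z.1 i j *
            (ker J x z.1 t z.2 * (jm J x t z.2 i a * jm J x t z.2 j b))) * (J x *ᵥ w) b ∂yv μ := by
          refine integral_congr_ae (Filter.Eventually.of_forall fun z => ?_)
          show ker J x z.1 t z.2 * val (Θ z.1) _ _ = _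
          rw [← sum_val (Θ z.1) x t z.2 w (J x *ᵥ w)]
          simp only [Fin.sum_univ_four]
          ring
      _ = ∑ a, ∑ b, w a * theta J μ Θ t x a b * (J x *ᵥ w) b := by
          rw [integral_finsetSum _ fun a _ => integrable_finsetSum _ fun b _ => hi a b]
          refine Finset.sum_congr rfl fun a _ => ?_
          rw [integral_finsetSum _ fun b _ => hi a b]
          exact Finset.sum_congr rfl fun b _ => by
            rw [integral_mul_const, integral_const_mul]; rfl
      _ = _ := by simp [val, dotProduct, Matrix.mulVec, Finset.mul_sum, mul_assoc]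
  rw [← hsum]
  set R : ℝ := (1 + 4 * K) * exp t
  set G : E × E → ℝ := fun z => (closedBall x R).indicator
    (fun _ => -(C₁ * exp (-2 * t) * (w ⬝ᵥ w))) z.1
  have hG : ∫ z, G z ∂yv μ
      = -(C₁ * V₁ * exp (-2 * t) * μ.real (closedBall x R) * (w ⬝ᵥ w)) := by
    show ∫ z, (fun y => (closedBall x R).indicator
      (fun _ => -(C₁ * exp (-2 * t) * (w ⬝ᵥ w))) y) z.1 ∂μ.prod _ = _
    rw [integral_fun_fst, integral_indicator_const _ measurableSet_closedBall]
    simp [hV₁]
    ring
  rw [← hG]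
  have hGi : Integrable G (yv μ) :=
    Integrable.of_bound ((measurable_const.indicator measurableSet_closedBall).comp
      measurable_fst).aestronglyMeasurable ‖-(C₁ * exp (-2 * t) * (w ⬝ᵥ w))‖
      (Filter.Eventually.of_forall fun z => norm_indicator_le_norm_self _ _)
  refine integral_mono_ae hGi ?_ ?_
  · refine (integrable_finsetSum Finset.univ fun a _ => integrable_finsetSum Finset.univ fun b _ =>
      ((S.integrable_thetaKer t x a b).const_mul (w a)).mul_const ((J x *ᵥ w) b)).congr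
      (Filter.Eventually.of_forall fun z => ?_)
    show _ = ker J x z.1 t z.2 * val (Θ z.1) _ _
    rw [← sum_val (Θ z.1) x t z.2 w (J x *ᵥ w)]
    simp only [Fin.sum_univ_four]
    ring
  filter_upwards [Measure.quasiMeasurePreserving_fst.ae (S.bound.and hp)] with z hz
  have hw0 : 0 ≤ w ⬝ᵥ w := Finset.sum_nonneg fun i _ => mul_self_nonneg (w i)
  have hC1 : 0 ≤ C₁ := by positivity
  by_cases hq : qd J x z.1 t z.2 ≤ 1
  · obtain ⟨hB, hpz⟩ := hz
    obtain ⟨h1, h2, -⟩ := hpz (hx t ht _ _ hq)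
    have hball : z.1 ∈ closedBall x R := by
      rw [mem_closedBall_iff_norm]; exact hc.norm_sub_le hq
    have hk0 : 0 ≤ ker J x z.1 t z.2 := mul_nonneg (exp_pos _).le (dens_nonneg _)
    have hk1 : ker J x z.1 t z.2 ≤ P * exp (-4 * t) := by
      rw [ker, mul_comm P]; exact mul_le_mul_of_nonneg_left (hP _ qd_nonneg) (exp_pos _).le
    have hv := val_jmat_lower hc hq h1 h2 (fun i j => (hB i j).trans (le_max_left B 0)) w
    set N := (16 * K * max B 0) * (D * exp t * ‖w‖) ^ 2
    have hN : 0 ≤ N := by positivity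
    have hN2 : P * exp (-4 * t) * N ≤ C₁ * exp (-2 * t) * (w ⬝ᵥ w) := by
      have e : exp (-4 * t) * exp t ^ 2 = exp (-2 * t) := by
        rw [pow_two, ← exp_add, ← exp_add]; ring_nf
      calc P * exp (-4 * t) * N = C₁ * (exp (-4 * t) * exp t ^ 2) * ‖w‖ ^ 2 := by
            simp only [N, hC₁]; ring
        _ ≤ _ := by rw [e]; exact mul_le_mul_of_nonneg_left (norm_sq_le_dot w) (by positivity)
    calc G z = -(C₁ * exp (-2 * t) * (w ⬝ᵥ w)) := indicator_of_mem hball _
      _ ≤ -(P * exp (-4 * t) * N) := neg_le_neg hN2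
      _ ≤ ker J x z.1 t z.2 * -N := by nlinarith
      _ ≤ _ := mul_le_mul_of_nonneg_left hv hk0
  · have h0 := (kernels_zero S.smooth (not_le.1 hq)).1
    rw [h0, zero_mul]
    exact indicator_apply_nonpos fun _ => by
      rw [neg_nonpos]; positivity

/-- The smoothed current is bounded at a fixed scale. -/
theorem theta_bound (hc : Coeff J K) (t : ℝ) :
    ∃ C, 0 ≤ C ∧ ∀ x a b, |theta J μ Θ t x a b| ≤ C := by
  obtain ⟨P, hP⟩ := exists_dens_bound
  have hP0 : 0 ≤ P := (dens_nonneg 0).trans (hP 0 le_rfl)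
  have hK : 0 ≤ K := (hc.bJ 0 0).nonneg
  have := S.finite
  have := S.finite_yv
  set C : ℝ := 4 * (4 * (max B 0 * (exp (-4 * t) * P * ((1 + exp t * (4 * K)) * (1 + exp t * (4 * K))))))
  refine ⟨C * (yv μ).real univ, by positivity, fun x a b => ?_⟩
  rw [← Real.norm_eq_abs]
  refine norm_integral_le_of_norm_le_const ?_
  filter_upwards [Measure.quasiMeasurePreserving_fst.ae S.bound] with z hz
  rw [Real.norm_eq_abs]
  by_cases hq : qd J x z.1 t z.2 ≤ 1
  · have hj : ∀ i c, |jm J x t z.2 i c| ≤ 1 + exp t * (4 * K) := fun i c => by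
      refine (abs_add_le _ _).trans (add_le_add (by split <;> simp) ?_)
      rw [abs_mul, abs_of_pos (exp_pos t)]
      exact mul_le_mul_of_nonneg_left (hc.abs_dj_le hq i c) (exp_pos t).le
    refine abs_sum4_le fun i => abs_sum4_le fun j => ?_
    rw [abs_mul, abs_mul, abs_mul, ker, abs_mul, abs_of_pos (exp_pos _),
      abs_of_nonneg (dens_nonneg _)]
    gcongr
    · exact mul_nonneg (mul_nonneg (exp_pos _).le (dens_nonneg _)) (by positivity)
    · exact (hz i j).trans (le_max_left _ _)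
    · exact hP _ qd_nonneg
    · exact hj i a
    · exact hj j b
  · simp only [(kernels_zero S.smooth (not_le.1 hq)).1, zero_mul, mul_zero, Finset.sum_const_zero,
      abs_zero]
    positivity

end Setup

end Vale.Agent.P204.Tame.ElMir
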